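import Vale.Agent.P144DC.En
import Vale.Agent.P144DR.Ex

/-!
The majorant after the subtraction of pairs: the statements on the lattice.
-/

namespace Vale.Agent.P144DQ

open Finset Vale.Agent.P144
open Vale.Agent.P144.AL (Pf cenK flat)
open Vale.Agent.P144Z (zd)
open Vale.Agent.P144DC (en gb)

/-- The correlation of the spins and of the centred energies in `A`. -/
noncomputable def lcS (E : (Config → ℝ) → ℝ) {n m : ℕ} (x : Fin n → Site) (y : Fin m → Site)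
    (j : Fin m → Fin 2) (A : Finset (Fin m)) : ℝ :=
  E fun σ => (∏ i, sp (σ (x i))) * ∏ k ∈ A, (en (y k) (j k) σ - E (en (y k) (j k)))

/-- The correlation of two centred energies. -/
noncomputable def gE (E : (Config → ℝ) → ℝ) (v : Site) (j : Fin 2) (w : Site) (i : Fin 2) : ℝ :=
  E fun σ => (en v j σ - E (en v j)) * (en w i σ - E (en w i))

/-- `r` is at most the distance from the spins to the other points and from the points to the
complement of `Λ`. -/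
structure Far (Λ : Set Site) {n m : ℕ} (x : Fin n → Site) (y : Fin m → Site) (T : Finset (Fin m))
    (r : ℕ) : Prop where
  hx : ∀ i v, zd v (x i) ≤ r → v ∈ Λ
  hy : ∀ k ∈ T, ∀ v, zd v (y k) ≤ r → v ∈ Λ
  xx : ∀ i i', i ≠ i' → r ≤ zd (x i) (x i')
  xy : ∀ i, ∀ k ∈ T, r ≤ zd (x i) (y k)

/-- `t k` and `u k` are at most the distances to the nearest and to the second nearest energy. -/
structure Scal {m : ℕ} (y : Fin m → Site) (T : Finset (Fin m)) (r : ℕ) (t u : Fin m → ℕ) :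
    Prop where
  le : ∀ k ∈ T, t k ≤ u k ∧ u k ≤ r
  ht : ∀ k ∈ T, ∀ l ∈ T, k ≠ l → t k ≤ zd (y k) (y l)
  hu : ∀ k ∈ T, ∀ l ∈ T, ∀ l' ∈ T, k ≠ l → k ≠ l' → l ≠ l' →
    u k ≤ max (zd (y k) (y l)) (zd (y k) (y l'))

/-- The bound for the state `E` of the set `Λ`; the pair terms are those of `E'`. -/
def LatW (E E' : (Config → ℝ) → ℝ) (Λ : Set Site) (n m : ℕ) (C : ℝ) : Prop :=
  ∀ (x : Fin n → Site) (y : Fin m → Site) (j : Fin m → Fin 2) (T : Finset (Fin m)) (r : ℕ)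
    (t u : Fin m → ℕ), Far Λ x y T r → Scal y T r t u →
      |P144DR.Ex (fun e => gE E' (y e.1) (j e.1) (y e.2) (j e.2)) (lcS E x y j) T| *
        ((r : ℝ) + 1) ^ ((n : ℝ) / 8) * ∏ k ∈ T, √(((t k : ℝ) + 1) * (u k + 1)) ≤ C

/-- The bound in any finite set. -/
def LW (J : ℝ) : Prop :=
  ∀ n m : ℕ, ∃ C : ℝ, ∀ μ, IsPlaneState J 0 (fun _ => 0) (Kc / J) μ →
    ∀ (b : Option Config) (Λ : Finset Site), (b = none ∨ b = some fun _ => true) →
      LatW (gb J b Λ) (fun F => ∫ σ, F σ ∂μ) Λ n m C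

/-- The labels: spins and the two legs of the energies. -/
abbrev Lab (n m : ℕ) : Type := Fin n ⊕ Fin m × Bool

/-- The first leg. -/
def lo {n m : ℕ} (k : Fin m) : Lab n m := .inr (k, false)

/-- The second leg. -/
def hi {n m : ℕ} (k : Fin m) : Lab n m := .inr (k, true)

/-- The bounds on the entries of a kernel; `τ` is the kernel of the plane. -/
structure KB (C : ℝ) (r : ℕ) (τ : Site × Fin 2 × Bool → Site × Fin 2 × Bool → ℝ) {n m : ℕ}
    (y : Fin m → Site) (j : Fin m → Fin 2) (T : Finset (Fin m)) (p : List (Fin n))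
    (K : Lab n m → Lab n m → ℝ) : Prop where
  ss : ∀ i ∈ p, ∀ i' ∈ p, i ≠ i' → |K (.inl i) (.inl i')| ≤ C
  se : ∀ i ∈ p, ∀ k ∈ T, ∀ c, K (.inl i) (.inr (k, c)) ^ 2 ≤ C / r
  ee : ∀ k ∈ T, ∀ l ∈ T, ∃ η : ℝ, η * η = 1 ∧ (k = l → η = 1) ∧ ∀ c c',
    |K (.inr (k, c)) (.inr (l, c')) - η * τ (y k, j k, c) (y l, j l, c')| ≤ C / r

/-- The mixed correlations are mixtures of Pfaffians. -/
def Rep (J : ℝ) (b : Option Config) : Prop :=
  ∃ (C₀ : ℝ) (R₀ : ℕ) (τ : Site × Fin 2 × Bool → Site × Fin 2 × Bool → ℝ),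
    (∀ c c', |τ c c'| ≤ C₀ / (zd c.1 c'.1 + 1)) ∧ ∀ n : ℕ, ∃ C : ℝ, ∀ (m : ℕ) (Λ : Finset Site)
      (x : Fin n → Site) (y : Fin m → Site) (j : Fin m → Fin 2) (T : Finset (Fin m)) (r : ℕ),
      R₀ ≤ r → Far Λ x y T r → ∃ (I : Finset (Finset Site)) (ω : Finset Site → ℝ)
        (p : List (Fin n)) (K : Finset Site → Lab n m → Lab n m → ℝ), p.Nodup ∧
        (∑ S ∈ I, |ω S|) * (r : ℝ) ^ ((n : ℝ) / 8) ≤ C ∧ (∀ S ∈ I, KB C r τ y j T p (K S)) ∧
        ∀ s : List (Fin m), s.Nodup → (∀ k ∈ s, k ∈ T) → ∀ t : Fin m → ℝ,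
          gb J b Λ (fun σ => (∏ i, sp (σ (x i))) * (s.map fun k => en (y k) (j k) σ - t k).prod) =
            ∑ S ∈ I, ω S * Pf (cenK (K S) lo hi t s) (p.map .inl ++ flat lo hi s)

end Vale.Agent.P144DQ
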