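import Vale.Agent.P144DQ.Pf
import Vale.Agent.P144DV.Ker
import Vale.Agent.P144F.Zero

/-!
The Wick rule with repeated corners; the entries of the kernels.
-/

namespace Vale.Agent.P144DQ

open Finset Vale.Agent.P144 Vale.Agent.P144P Vale.Agent.P144DC
open Vale.Agent.P144.H170 (Pt bx mem_bx)
open Vale.Agent.P144.AL (Cn cnr mem_cnr Pf el ep fcs sps ep_sq fcs_cons sps_cons fcs_append
  sps_append)
open Vale.Agent.P144Z (zd)

theorem el_two (p s : List Cn) (x y : Cn) :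
    el (p ++ x :: y :: s) = ep x y * ep y x * el (p ++ y :: x :: s) := by
  induction p with
  | nil =>
    simp only [List.nil_append, el, List.map_cons, List.prod_cons]
    linear_combination (-(ep x y * (s.map (ep x)).prod * (s.map (ep y)).prod * el s)) * ep_sq y x
  | cons c p ih =>
    simp only [List.cons_append, el, ih, List.map_append, List.map_cons, List.prod_append,
      List.prod_cons]
    ring

theorem el_dup (p s : List Cn) (x : Cn) : el (p ++ x :: x :: s) = ep x x * el (p ++ s) := by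
  induction p with
  | nil =>
    simp only [List.nil_append, el, List.map_cons, List.prod_cons]
    linear_combination (ep x x * el s) * AL.map_sq s (ep x) (ep_sq x)
  | cons c p ih =>
    simp only [List.cons_append, el, ih, List.map_append, List.map_cons, List.prod_append,
      List.prod_cons]
    linear_combination ((p.map (ep c)).prod * (s.map (ep c)).prod * ep x x * el (p ++ s)) * ep_sq c x

theorem wf_rep {Q : Multiset Site → Multiset Site → ℝ} {R : Multiset Site} {ok : Cn → Prop}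
    (hs : ∀ R A u, Q R (u ::ₘ u ::ₘ A) = Q R A) (hd : ∀ R A r, Q (r ::ₘ r ::ₘ R) A = Q R A)
    (h0 : Q R 0 ≠ 0) (hok : ∀ c, ok c → c.1 ∈ cnr c.2) {W : List Cn → ℝ}
    (hW : ∀ l, W l = el l * Q (fcs l + R) (sps l) / Q R 0)
    (h : ∀ l, (∀ c ∈ l, ok c) → l.Nodup → Even l.length → W l = Pf (fun c c' => W [c, c']) l)
    (l : List Cn) (hl : ∀ c ∈ l, ok c) (he : Even l.length) :
    W l = Pf (fun c c' => W [c, c']) l := by
  have e : ∀ (p s : List Cn) (x y : Cn), fcs (p ++ x :: y :: s) + R = x.2 ::ₘ y.2 ::ₘ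
      (fcs (p ++ s) + R) ∧ sps (p ++ x :: y :: s) = x.1 ::ₘ y.1 ::ₘ sps (p ++ s) := fun p s x y => by
    simp only [fcs_append, sps_append, fcs_cons, sps_cons, Multiset.add_cons, Multiset.cons_add,
      and_self]
  have h1 : ∀ p s x y, ok x → ok y → x ≠ y → W (p ++ x :: y :: s) = -W (p ++ y :: x :: s) :=
    fun p s x y a b c => by
      rw [hW, hW, el_two, AL.ep_anti (hok x a) (hok y b) c, (e ..).1, (e ..).2, (e ..).1, (e ..).2,
        Multiset.cons_swap x.2, Multiset.cons_swap x.1]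
      ring
  have h2 : ∀ p s x, W (p ++ x :: x :: s) = ep x x * W (p ++ s) := fun p s x => by
    rw [hW, hW, el_dup, (e ..).1, (e ..).2, hs, hd]
    ring
  refine wick_rep h1 (fun p s x => ?_) (fun x y a b c => ?_) h l hl he
  · have := h2 [] [] x
    rw [List.nil_append, List.nil_append, hW [], show fcs [] = 0 from rfl, zero_add,
      show sps [] = 0 from rfl, el, one_mul, div_self h0, mul_one] at this
    rw [h2, this]
  · exact add_eq_zero_iff_eq_neg.2 (h1 [] [] x y a b c)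

theorem wf_free {Λ : Finset Site} (R : Multiset Site) (l : List Cn)
    (hl : ∀ c ∈ l, c.1 ∈ cnr c.2 ∧ c.1 ∈ Λ) (he : Even l.length) :
    AL.Wf Λ R l = Pf (fun c c' => AL.Wf Λ R [c, c']) l :=
  wf_rep (AL.QQ_spin_pair Λ) (AL.QQ_dis_pair Λ) (AL.QQ_pos Λ R).ne' (fun _ h => h.1)
    (fun _ => rfl) (P144T.E.Wf_Pf R) l hl he

theorem wf_plus {P : Finset Site} (R : Multiset Site) (l : List Cn)
    (hl : ∀ c ∈ l, c.1 ∈ cnr c.2 ∧ c.1 ∈ P144S.Vx P) (he : Even l.length) :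
    P144S.Wf P R l = Pf (fun c c' => P144S.Wf P R [c, c']) l :=
  wf_rep (P144S.W.QQ_spin_pair P) (P144S.W.QQ_dis_pair P) (P144S.W.QQ_pos P R).ne' (fun _ h => h.1)
    (fun _ => rfl) (P144Y.H.spf P R) l hl he

/-- The entries near the diagonal, in a gauge, and the decay of the kernel of the plane. -/
theorem ker2 : ∃ (C : ℝ) (τ : Cn → Cn → ℝ), 0 ≤ C ∧
    (∀ c y : Cn, y.1 ∈ cnr y.2 → |τ c y| ≤ C / (zd c.2 y.2 + 1)) ∧ ∀ Λ R G, KS Λ R G → ∀ (c y : Cn)
    (p : Site) (d : ℕ), c.1 ∈ cnr c.2 → y.1 ∈ cnr y.2 → zd y.2 p ≤ 1 → 400 ≤ d →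
    (∀ v, zd v p ≤ d → v ∈ Λ) → 200 * zd c.2 p ≤ d →
      |gg (fun f => f.2 ≤ p.2) R y.1.1 * gg (fun f => f.2 ≤ p.2) R c.1.1 * G c y - τ c y| ≤
        C / d := by
  obtain ⟨K, Q, κ, K₀, hQ⟩ := exists_Q
  obtain ⟨K, K0, K1, K2⟩ : ∃ K' : ℝ, 0 ≤ K' ∧ K ≤ K' ∧ ∀ v ∈ cnr 0, ∀ x ∈ bx 0 1, (Q v).sq x ≤ K' := by
    have n : ∀ v x, 0 ≤ (Q v).sq x := fun _ _ => Fld.sq_nn _ _
    have a := sum_nonneg (s := cnr 0) fun v _ => sum_nonneg (s := bx 0 1) fun x _ => n v x
    refine ⟨K + _, add_nonneg K₀ a, le_add_of_nonneg_right a, fun v hv x hx => ?_⟩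
    exact le_add_of_nonneg_of_le K₀ ((single_le_sum (fun x _ => n v x) hx).trans
      (single_le_sum (f := fun v => ∑ x ∈ bx 0 1, (Q v).sq x)
        (fun v _ => sum_nonneg fun x _ => n v x) hv))
  have hq : ∀ v ∈ cnr 0, ∀ (n : ℕ) (x : Pt), 0 < n → x ∉ bx 0 n → (Q v).sq x ≤ K / (n : ℝ) ^ 2 :=
    fun v hv n x a b => ((hQ v hv).2 n x a b).trans (div_le_div_of_nonneg_right K1 (by positivity))
  have y0 : ∀ {y : Cn}, y.1 ∈ cnr y.2 → y.1 - y.2 ∈ cnr 0 := fun hy => by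
    rw [mem_cnr] at hy ⊢
    simp only [Prod.ext_iff, Prod.fst_sub, Prod.snd_sub, Prod.fst_zero, Prod.snd_zero] at hy ⊢
    omega
  have k2 : (10 ^ 22 * √K) ^ 2 = 10 ^ 44 * K := by rw [mul_pow, Real.sq_sqrt K0]; norm_num
  refine ⟨10 ^ 22 * √K, fun c y => val (Q (y.1 - y.2)) (c.1 - y.2, c.2 - y.2), by positivity,
    fun c y hy => abs_le_of_sq_le_sq ((val_sq _ _).trans ?_) (by positivity),
    fun Λ R G h c y p d hc hy yp hd hp cp => ?_⟩
  · rw [div_pow, k2, le_div_iff₀ (by positivity)]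
    have b : ∀ n : ℕ, c.2 - y.2 ∈ bx 0 n ↔ zd c.2 y.2 ≤ n := fun n => by
      simp only [mem_bx, zd, Prod.fst_sub, Prod.snd_sub, Prod.fst_zero, Prod.snd_zero]
      omega
    generalize zd c.2 y.2 = z at b ⊢
    rcases le_or_gt z 1 with a | a
    · have : ((z : ℝ) + 1) ^ 2 ≤ 2 ^ 2 :=
        pow_le_pow_left₀ (by positivity) (by exact_mod_cast (by omega)) 2
      nlinarith [mul_le_mul (K2 _ (y0 hy) _ ((b 1).2 a)) this (by positivity) K0]
    · have a1 := hq _ (y0 hy) (z - 1) _ (by omega) fun e => by have := (b _).1 e; omega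
      have a0 : (0 : ℝ) < (z - 1 : ℕ) := by exact_mod_cast (by omega)
      have : ((z : ℝ) + 1) ^ 2 ≤ (3 * (z - 1 : ℕ)) ^ 2 :=
        pow_le_pow_left₀ (by positivity) (by exact_mod_cast (by omega)) 2
      rw [le_div_iff₀ (by positivity)] at a1
      nlinarith [mul_le_mul_of_nonneg_left this (Fld.sq_nn (Q (y.1 - y.2)) (c.2 - y.2))]
  have i1 : ∀ {x : Site}, zd x p + 2 ≤ d → x ∈ inn Λ := fun b v hv => hp v (by
    rw [mem_bx] at hv
    unfold zd at b ⊢
    omega)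
  obtain ⟨X, U, W, hs, hG⟩ := h y hy (i1 (by omega))
  have hn : 4 ≤ d / 100 := by omega
  obtain ⟨m1, -⟩ := hs.main hn (fun x hx => i1 (by
    rw [mem_bx] at hx
    unfold zd at yp ⊢
    omega)) (hQ _ (y0 hy)).1 K0 (fun x hx => hq _ (y0 hy) _ x (by omega) hx) hc
  have d0 : (0 : ℝ) < d := by exact_mod_cast (by omega)
  have n0 : (0 : ℝ) < (d / 100 : ℕ) := by exact_mod_cast (by omega)
  have dn : (d : ℝ) ≤ 200 * (d / 100 : ℕ) := by exact_mod_cast (by omega)
  have := m1 (by rw [mem_bx]; unfold zd at cp yp; omega)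
  rw [← mul_assoc, ga, ga, P144DV.gg_pair (S' := fun f => f.2 ≤ p.2) fun f hf => ?_,
    ← hG c hc (i1 (by omega))] at this
  · refine abs_le_of_sq_le_sq (this.trans ?_) (by positivity)
    rw [div_pow, k2, div_le_div_iff₀ (by positivity) (by positivity)]
    have := mul_le_mul_of_nonneg_left (pow_le_pow_left₀ d0.le dn 2) K0
    nlinarith [mul_nonneg K0 (sq_nonneg ((d / 100 : ℕ) : ℝ))]
  · have a0 : d < zd f p + 2 := not_le.1 fun c => hs.out f hf (i1 c)
    have a1 : ∀ {c : Cn}, c.1 ∈ cnr c.2 → c.2.1 ≤ c.1.1 ∧ c.1.1 ≤ c.2.1 + 1 := fun hc => by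
      rw [mem_cnr] at hc
      simp only [Prod.ext_iff] at hc
      omega
    have a2 := a1 hc
    have a3 := a1 hy
    unfold zd at a0 cp yp
    clear this y0 hc hy
    by_cases a4 : (f.2 - p.2).natAbs ≤ 1
    · exact Or.inr (by omega)
    · exact Or.inl (by omega)

/-- All entries. -/
theorem ker3 : ∃ (C : ℝ) (τ : Cn → Cn → ℝ), 0 ≤ C ∧
    (∀ c y : Cn, y.1 ∈ cnr y.2 → |τ c y| ≤ C / (zd c.2 y.2 + 1)) ∧ ∀ Λ R G, KS Λ R G → ∀ (c y : Cn)
    (p p' : Site) (d : ℕ), c.1 ∈ cnr c.2 → y.1 ∈ cnr y.2 → zd y.2 p ≤ 1 → zd c.2 p' ≤ 1 →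
    160000 ≤ d → (∀ v, zd v p ≤ d → v ∈ Λ) → (∀ v, zd v p' ≤ d → v ∈ Λ) →
      |(if 400 * zd p' p ≤ d then gg (fun f => f.2 ≤ p.2) R y.1.1 * gg (fun f => f.2 ≤ p.2) R c.1.1
        else 1) * G c y - τ c y| ≤ C / d := by
  obtain ⟨C, τ₀, hC, h⟩ := ker
  obtain ⟨C', τ, hC', h1, h2⟩ := ker2
  refine ⟨800 * (C + C'), τ, by positivity, fun c y hy => (h1 c y hy).trans
    (div_le_div_of_nonneg_right (by linarith) (by positivity)),
    fun Λ R G k c y p p' d hc hy yp cp hd hp hp' => ?_⟩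
  have t1 := P144F.zd_tri c.2 p' p
  have t2 := P144F.zd_tri p' c.2 p
  have t3 := P144F.zd_tri c.2 y.2 p
  rw [zd_symm p' c.2] at t2
  split_ifs with a
  · exact (h2 Λ R G k c y p d hc hy yp (by omega) hp (by omega)).trans
      (div_le_div_of_nonneg_right (by linarith) (by positivity))
  have b1 := (h Λ R G k c y p (d / 400) hc hy yp (by omega) fun v hv => hp v (by omega)).2 p'
    (d / 400) cp (by omega) (fun v hv => hp' v (by omega)) (by omega) (by omega)
  have d0 : (0 : ℝ) < d := by exact_mod_cast (by omega)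
  have b2 : ∀ {K e : ℝ}, 0 ≤ K → (d : ℝ) ≤ 800 * e → K / e ≤ 800 * K / d := fun a b => by
    rw [div_le_div_iff₀ (by linarith) d0]
    nlinarith
  rw [one_mul, mul_add, add_div]
  exact (abs_sub _ _).trans (add_le_add ((abs_le_of_sq_le_sq (b1.trans_eq (by rw [← sq, div_pow]))
    (by positivity)).trans (b2 hC (by exact_mod_cast (by omega)))) ((h1 c y hy).trans
      (b2 hC' (by exact_mod_cast (by omega)))))

end Vale.Agent.P144DQ
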