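import Vale.Agent.P144DQ.Pf

/-!
The expansion in the entries between two energies; the bound after the subtraction of pairs.
-/

namespace Vale.Agent.P144DQ

open Vale.Agent.P144.AL

variable {α ι : Type*}

open Classical in
/-- The kernel with other entries between `a, a'` and `b, b'`. -/
noncomputable def kp (K : α → α → ℝ) (a a' b b' : α) (c₁ c₂ c₃ c₄ : ℝ) (x y : α) : ℝ :=
  if x = a ∧ y = b then c₁ else if x = a ∧ y = b' then c₂ else if x = a' ∧ y = b then c₃ else
    if x = a' ∧ y = b' then c₄ else K x y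

theorem kp_congr (K : α → α → ℝ) {a a' b b' : α} {c₁ c₂ c₃ c₄ d₁ d₂ d₃ d₄ : ℝ} {l : List α}
    (h1 : a ∈ l → b ∈ l → c₁ = d₁) (h2 : a ∈ l → b' ∈ l → c₂ = d₂) (h3 : a' ∈ l → b ∈ l → c₃ = d₃)
    (h4 : a' ∈ l → b' ∈ l → c₄ = d₄) :
    Pf (kp K a a' b b' c₁ c₂ c₃ c₄) l = Pf (kp K a a' b b' d₁ d₂ d₃ d₄) l :=
  Pf_congr l fun x y h => by
    have hx := h.subset (show x ∈ [x, y] by simp)
    have hy := h.subset (show y ∈ [x, y] by simp)
    unfold kp
    split_ifs with c c c c
    exacts [h1 (c.1 ▸ hx) (c.2 ▸ hy), h2 (c.1 ▸ hx) (c.2 ▸ hy), h3 (c.1 ▸ hx) (c.2 ▸ hy),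
      h4 (c.1 ▸ hx) (c.2 ▸ hy), rfl]

theorem kp_self (K : α → α → ℝ) (a a' b b' : α) :
    kp K a a' b b' (K a b) (K a b') (K a' b) (K a' b') = K := by
  funext x y
  unfold kp
  split_ifs with c c c c <;> first | rfl | rw [c.1, c.2]

theorem kp_zero {K : α → α → ℝ} {a a' b b' x y : α} (h : x ∈ [a, a'] ∧ y ∈ [b, b']) :
    kp K a a' b b' 0 0 0 0 x y = 0 := by
  simp only [List.mem_cons, List.not_mem_nil, or_false] at h
  unfold kp
  split_ifs <;> first | rfl | tauto

theorem kp_off {K : α → α → ℝ} {a a' b b' x y : α} (h : ¬ (x ∈ [a, a'] ∧ y ∈ [b, b'])) :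
    kp K a a' b b' 0 0 0 0 x y = K x y := by
  simp only [List.mem_cons, List.not_mem_nil, or_false] at h
  unfold kp
  split_ifs <;> first | rfl | tauto

theorem Pf_block (K : α → α → ℝ) {a a' b b' : α} {p s : List α}
    (hnd : (p ++ a :: a' :: b :: b' :: s).Nodup) (c₁ c₂ c₃ c₄ : ℝ) :
    Pf (kp K a a' b b' c₁ c₂ c₃ c₄) (p ++ a :: a' :: b :: b' :: s) =
      Pf (kp K a a' b b' 0 0 0 0) (p ++ [a, a', b, b'] ++ s) +
      -c₁ * Pf (kp K a a' b b' 0 0 0 0) (p ++ [a', b'] ++ s) +
      c₂ * Pf (kp K a a' b b' 0 0 0 0) (p ++ [a', b] ++ s) +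
      c₃ * Pf (kp K a a' b b' 0 0 0 0) (p ++ [a, b'] ++ s) +
      -c₄ * Pf (kp K a a' b b' 0 0 0 0) (p ++ [a, b] ++ s) +
      (c₂ * c₃ - c₁ * c₄) * Pf (kp K a a' b b' 0 0 0 0) (p ++ s) := by
  have n := hnd
  simp only [List.nodup_append, List.nodup_cons, List.mem_cons, not_or, ne_eq, forall_eq_or_imp]
    at n
  obtain ⟨-, ⟨⟨n1, n2, n3, sa⟩, ⟨n4, n5, sa'⟩, ⟨n6, sb⟩, sb', -⟩, np⟩ := n
  have pa : a ∉ p := fun h => (np _ h).1 rfl
  have pb : b ∉ p := fun h => (np _ h).2.2.1 rfl
  have pb' : b' ∉ p := fun h => (np _ h).2.2.2.1 rfl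
  have m1 := Ne.symm n1
  have m6 := Ne.symm n6
  have e1 := Pf_ent (K := kp K a a' b b' 0 c₂ c₃ c₄) (K' := kp K a a' b b' c₁ c₂ c₃ c₄) (e := a)
    (e' := b) (fun x y h => by simp only [kp, h, if_false]) p [a'] (b' :: s) hnd
  have e2 := Pf_ent (K := kp K a a' b b' 0 0 c₃ c₄) (K' := kp K a a' b b' 0 c₂ c₃ c₄) (e := a)
    (e' := b') (fun x y h => by simp only [kp, h, if_false]) p [a', b] s hnd
  have e3 := Pf_ent (K := kp K a a' b b' 0 0 0 c₄) (K' := kp K a a' b b' 0 0 c₃ c₄) (e := a')
    (e' := b) (fun x y h => by simp only [kp, h, if_false]) (p ++ [a]) [] (b' :: s)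
    (by simpa using hnd)
  have e4 := Pf_ent (K := kp K a a' b b' 0 0 0 0) (K' := kp K a a' b b' 0 0 0 c₄) (e := a')
    (e' := b') (fun x y h => by simp only [kp, h, if_false]) (p ++ [a]) [b] s (by simpa using hnd)
  have e5 := Pf_ent (K := kp K a a' b b' 0 0 0 0) (K' := kp K a a' b b' 0 0 0 c₄) (e := a')
    (e' := b') (fun x y h => by simp only [kp, h, if_false]) p [] s
    (hnd.sublist (((((List.Sublist.refl _).cons _).cons_cons _).cons _).append_left p))
  have e6 := Pf_ent (K := kp K a a' b b' 0 0 0 0) (K' := kp K a a' b b' 0 0 c₃ 0) (e := a')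
    (e' := b) (fun x y h => by simp only [kp, h, if_false]) p [] s
    (hnd.sublist ((((((List.Sublist.refl _).cons _).cons_cons _).cons_cons _).cons _).append_left p))
  have e7 := kp_congr K (l := p ++ a' :: b' :: s) (a := a) (a' := a') (b := b) (b' := b') (c₁ := 0)
    (c₂ := c₂) (c₃ := c₃) (c₄ := c₄) (d₁ := 0) (d₂ := 0) (d₃ := 0) (fun _ _ => rfl)
    (by simp [*]) (by simp [pb, sb, n6, Ne.symm n4]) fun _ _ => rfl
  have e8 := kp_congr K (l := p ++ a' :: b :: s) (a := a) (a' := a') (b := b) (b' := b') (c₁ := 0)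
    (c₂ := 0) (c₃ := c₃) (c₄ := c₄) (d₄ := 0) (fun _ _ => rfl) (fun _ _ => rfl) (fun _ _ => rfl)
    (by simp [pb', sb', m6, Ne.symm n5])
  have e9 := kp_congr K (l := p ++ a :: b' :: s) (a := a) (a' := a') (b := b) (b' := b') (c₁ := 0)
    (c₂ := 0) (c₃ := 0) (c₄ := c₄) (d₄ := 0) (fun _ _ => rfl) (fun _ _ => rfl) (fun _ _ => rfl)
    (by simp [sa', m1, n5, show a' ∉ p from fun h => (np _ h).2.1 rfl])
  simp only [kp, m1, m6, and_self, and_true, and_false, false_and, if_true, if_false,
    List.append_assoc, List.cons_append, List.nil_append, List.length_cons, List.length_nil,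
    sub_zero] at e1 e2 e3 e4 e5 e6 ⊢
  rw [e1, e2, e3, e4, e7, e8, e9, e5, e6]
  ring

/-- The subtraction of the terms `G` of the pairs in a list. -/
def EL (G : ι × ι → ℝ) : (List ι → ℝ) → List (ι × ι) → ℝ
  | f, [] => f []
  | f, e :: L => EL G (fun s => f (e.1 :: e.2 :: s)) L - G e * EL G f L

variable {G : ι × ι → ℝ}

theorem EL_congr {f g : List ι → ℝ} {L : List (ι × ι)}
    (h : ∀ s, s.Sublist (flat Prod.fst Prod.snd L) → f s = g s) : EL G f L = EL G g L := by
  induction L generalizing f g with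
  | nil => exact h _ (List.Sublist.refl _)
  | cons e L ih =>
    rw [EL, EL, ih fun s a => h _ ((a.cons_cons _).cons_cons _), ih fun s a => h _ ((a.cons _).cons _)]

theorem EL_add (f g : List ι → ℝ) (L : List (ι × ι)) :
    EL G (fun s => f s + g s) L = EL G f L + EL G g L := by
  induction L generalizing f g with
  | nil => rfl
  | cons e L ih =>
    rw [EL, EL, EL, ih, ih]
    ring

theorem EL_mul (c : ℝ) (f : List ι → ℝ) (L : List (ι × ι)) :
    EL G (fun s => c * f s) L = c * EL G f L := by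
  induction L generalizing f with
  | nil => rfl
  | cons e L ih =>
    rw [EL, EL, ih, ih]
    ring

theorem EL_sum {κ : Type*} (I : Finset κ) (f : κ → List ι → ℝ) (L : List (ι × ι)) :
    EL G (fun s => ∑ i ∈ I, f i s) L = ∑ i ∈ I, EL G (f i) L := by
  induction L generalizing f with
  | nil => rfl
  | cons e L ih => simp only [EL, ih, Finset.sum_sub_distrib, Finset.mul_sum]

theorem flat_sub (e e' : ι → α) {s s' : List ι} (h : s.Sublist s') :
    (flat e e' s).Sublist (flat e e' s') := by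
  induction h with
  | slnil => exact List.Sublist.refl _
  | cons k _ ih => exact (ih.cons _).cons _
  | cons_cons k _ ih => exact (ih.cons_cons _).cons_cons _

/-- The bound after the subtraction. -/
theorem EL_le {e e' : ι → α} {w : α → ℝ} {a b : ι → ℝ} {L₀ : List α} (hnd : L₀.Nodup)
    (hw : ∀ x, 0 ≤ w x) (he : ∀ k, w (e k) = b k ∧ w (e' k) = b k) (hab : ∀ k, b k ≤ a k)
    (L : List (ι × ι)) (p : List α) (Z : α → α → ℝ)
    (h1 : (p ++ flat e e' (flat Prod.fst Prod.snd L)).Sublist L₀)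
    (h2 : ∀ x y, [x, y].Sublist L₀ → (∀ q ∈ L, x ∈ [e q.1, e' q.1] → y ∉ [e q.2, e' q.2]) →
      |Z x y| ≤ w x * w y)
    (h3 : ∀ q ∈ L, (∀ x ∈ [e q.1, e' q.1], ∀ y ∈ [e q.2, e' q.2], |Z x y| ≤ a q.1 * a q.2) ∧
      |Z (e q.1) (e' q.2) * Z (e' q.1) (e q.2) - Z (e q.1) (e q.2) * Z (e' q.1) (e' q.2) - G q| ≤
        a q.1 * b q.1 * (a q.2 * b q.2)) :
    |EL G (fun s => Pf Z (p ++ flat e e' s)) L| ≤ 6 ^ L.length * (L₀.length.factorial *
      ((p.map w).prod * (L.map fun q => a q.1 * b q.1 * (a q.2 * b q.2)).prod)) := by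
  have nn : ∀ l : List α, 0 ≤ (l.map w).prod := fun l => List.prod_nonneg fun z hz => by
    obtain ⟨x, -, rfl⟩ := List.mem_map.1 hz
    exact hw x
  have b0 : ∀ k, 0 ≤ b k := fun k => (he k).1 ▸ hw _
  have a0 : ∀ k, 0 ≤ a k := fun k => (b0 k).trans (hab k)
  induction L generalizing p Z with
  | nil =>
    simp only [EL, flat, List.flatMap_nil, List.append_nil, List.length_nil, pow_zero, one_mul,
      List.map_nil, List.prod_nil, mul_one] at h1 ⊢
    refine (P144DC.pf_le hw p fun x y h => h2 x y (h.trans h1) (by simp)).trans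
      (mul_le_mul_of_nonneg_right ?_ (nn p))
    exact_mod_cast Nat.factorial_le h1.length_le
  | cons q L ih =>
    obtain ⟨k, l⟩ := q
    simp only [flat_cons] at h1
    have n := hnd.sublist h1
    have n' := (List.nodup_append.1 n).2.1
    simp only [List.nodup_cons, List.mem_cons, not_or] at n'
    set Z₀ := kp Z (e k) (e' k) (e l) (e' l) 0 0 0 0 with hZ
    have z : ∀ x y, x ≠ e k → x ≠ e' k → Z₀ x y = Z x y := fun x y c d => kp_off (by simp [c, d])
    have m : ∀ q ∈ L, ∀ x ∈ [e q.1, e' q.1], ∀ y, Z₀ x y = Z x y := fun q hq x hx y => by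
      have : x ∈ flat e e' (flat Prod.fst Prod.snd L) :=
        List.mem_flatMap.2 ⟨q.1, List.mem_flatMap.2 ⟨q, hq, by simp⟩, hx⟩
      exact z x y (fun c => n'.1.2.2.2 (c ▸ this)) fun c => n'.2.1.2.2 (c ▸ this)
    set P := (L₀.length.factorial : ℝ) * ((p.map w).prod *
      (L.map fun q => a q.1 * b q.1 * (a q.2 * b q.2)).prod) with hP
    have key : ∀ (r : List α) (c : ℝ), r.Sublist [e k, e' k, e l, e' l] →
        |c| * (r.map w).prod ≤ a k * b k * (a l * b l) →
        |c * EL G (fun s => Pf Z₀ (p ++ r ++ flat e e' s)) L| ≤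
          6 ^ L.length * (a k * b k * (a l * b l) * P) := fun r c hr hc => by
      have := ih (p ++ r) Z₀ (List.Sublist.trans (by
        rw [List.append_assoc]
        exact (hr.append_right _).append_left p) h1) (fun x y c d => by
          by_cases f : x ∈ [e k, e' k] ∧ y ∈ [e l, e' l]
          · rw [hZ, kp_zero f, abs_zero]
            exact mul_nonneg (hw x) (hw y)
          · rw [hZ, kp_off f]
            exact h2 x y c (List.forall_mem_cons.2 ⟨fun u v => f ⟨u, v⟩, d⟩)) fun q hq => by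
          have := h3 q (List.mem_cons_of_mem _ hq)
          rw [m q hq _ (by simp), m q hq _ (by simp), m q hq _ (by simp), m q hq _ (by simp)]
          exact ⟨fun x c y d => by rw [m q hq x c]; exact this.1 x c y d, this.2⟩
      rw [abs_mul]
      refine (mul_le_mul_of_nonneg_left this (abs_nonneg c)).trans (le_trans (le_of_eq ?_)
        (mul_le_mul_of_nonneg_left (mul_le_mul_of_nonneg_right hc (show 0 ≤ P from
          mul_nonneg (by positivity) (mul_nonneg (nn p) (List.prod_nonneg fun z hz => by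
            obtain ⟨x, -, rfl⟩ := List.mem_map.1 hz
            exact mul_nonneg (mul_nonneg (a0 _) (b0 _)) (mul_nonneg (a0 _) (b0 _)))))) (by positivity)))
      rw [hP, List.map_append, List.prod_append]
      ring
    obtain ⟨c1, c2⟩ := h3 (k, l) (List.mem_cons_self ..)
    have two : ∀ x ∈ [e k, e' k], ∀ y ∈ [e l, e' l], ∀ x' ∈ [e k, e' k], ∀ y' ∈ [e l, e' l],
        |Z x y| * ([x', y'].map w).prod ≤ a k * b k * (a l * b l) := fun x c y d x' c' y' d' => by
      have u : ([x', y'].map w).prod = b k * b l := by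
        simp only [List.mem_cons, List.not_mem_nil, or_false] at c' d'
        rcases c' with rfl | rfl <;> rcases d' with rfl | rfl <;> simp [he]
      rw [u]
      exact (mul_le_mul_of_nonneg_right (c1 x c y d) (mul_nonneg (b0 k) (b0 l))).trans_eq (by ring)
    have k1 := key _ 1 (List.Sublist.refl _) (by
      simp only [List.map_cons, List.prod_cons, List.map_nil, List.prod_nil, he, abs_one]
      refine le_trans (le_of_eq (by ring)) (mul_le_mul (mul_le_mul_of_nonneg_right (hab k) (b0 k))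
        (mul_le_mul_of_nonneg_right (hab l) (b0 l)) (mul_nonneg (b0 l) (b0 l))
        (mul_nonneg (a0 k) (b0 k))))
    have k2 := key [e' k, e' l] (-Z (e k) (e l)) (by simp) (by
      rw [abs_neg]; exact two _ (by simp) _ (by simp) _ (by simp) _ (by simp))
    have k3 := key [e' k, e l] (Z (e k) (e' l)) (by simp)
      (two _ (by simp) _ (by simp) _ (by simp) _ (by simp))
    have k4 := key [e k, e' l] (Z (e' k) (e l)) (by simp)
      (two _ (by simp) _ (by simp) _ (by simp) _ (by simp))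
    have k5 := key [e k, e l] (-Z (e' k) (e' l)) (by simp) (by
      rw [abs_neg]; exact two _ (by simp) _ (by simp) _ (by simp) _ (by simp))
    have k6 := key [] _ (by simp) (by simpa using c2)
    have e1 := EL_congr (G := G) (L := L) fun s hs => (congrArg (Pf · _) (kp_self Z ..).symm).trans
      (Pf_block Z (n.sublist ((((((flat_sub e e' hs).cons_cons _).cons_cons _).cons_cons
        _).cons_cons _).append_left p)) ..)
    have e2 := EL_congr (G := G) (L := L) (f := fun s => Pf Z (p ++ flat e e' s))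
      (g := fun s => Pf Z₀ (p ++ flat e e' s)) fun s hs => Pf_congr _ fun x y c => by
        have := ((flat_sub e e' hs).append_left p).subset (c.subset (show x ∈ [x, y] by simp))
        have d := List.nodup_cons.1 (List.nodup_middle.1 n)
        refine (z x y (fun f => d.1 ?_) fun f => (List.nodup_cons.1 (List.nodup_middle.1 d.2)).1 ?_).symm <;>
        · rw [← f]
          simp only [List.mem_append, List.mem_cons] at this ⊢
          tauto
    simp only [EL_add, EL_mul, ← hZ] at e1
    simp only [EL, flat_cons, e1, e2, List.length_cons, pow_succ, List.map_cons, List.prod_cons]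
    rw [List.append_nil, abs_le] at k6
    rw [abs_le] at k1 k2 k3 k4 k5 ⊢
    rw [hP] at *
    constructor <;> linarith [k1.1, k1.2, k2.1, k2.2, k3.1, k3.2, k4.1, k4.2, k5.1, k5.2, k6.1, k6.2]

theorem two_sub {l : List α} {x y : α} (h : l.Nodup) (h1 : [x, y].Sublist l)
    (h2 : [y, x].Sublist l) : False := by
  induction l with
  | nil => simp at h1
  | cons c l ih =>
    rw [List.nodup_cons] at h
    rcases List.sublist_cons_iff.1 h1 with a | ⟨_, a, a'⟩ <;>
      rcases List.sublist_cons_iff.1 h2 with b | ⟨_, b, b'⟩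
    · exact ih h.2 a b
    · exact h.1 (a.subset (by simp [← (List.cons.inj b).1]))
    · exact h.1 (b.subset (by simp [← (List.cons.inj a).1]))
    · exact h.1 (a'.subset (by simp [← (List.cons.inj a).2, ← (List.cons.inj b).1]))

end Vale.Agent.P144DQ
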