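import Vale.Agent.P144DQ.Wick

/-!
The kernels of the free model with disorders at inner faces.
-/

namespace Vale.Agent.P144DQ

open Finset Vale.Agent.P144 Vale.Agent.P144P Vale.Agent.P144DC
open Vale.Agent.P144.H170 (Pt bx D mem_bx)
open Vale.Agent.P144.AL (Cn cnr mem_cnr tauR theA ep Wf xA xB xC xD)
open Vale.Agent.P144Z (zd)

variable {Λ Λ' : Finset Site} {R : Multiset Site}

theorem Wf_two (Λ : Finset Site) (R : Multiset Site) (c y : Cn) :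
    Wf Λ R [c, y] = ep c y * (AL.QQ Λ (c.2 ::ₘ y.2 ::ₘ R) (c.1 ::ₘ {y.1}) / AL.QQ Λ R 0) := by
  unfold AL.Wf
  simp only [AL.el, List.map_nil, List.prod_nil, List.map_cons, List.prod_cons, mul_one,
    mul_div_assoc, AL.fcs_cons, Multiset.cons_add, show AL.fcs [] = 0 from rfl, zero_add]
  rfl

theorem spin_dis (hs : Λ' ⊆ Λ) (hR : ∀ f ∈ R, f ∈ inn Λ ∧ f ∉ Λ') {y : Cn} (hy : y.1 ∈ cnr y.2)
    (hΛ : y.1 ∈ Λ) : ∃ X U W, Spin (inn Λ') R y X U W ∧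
      (∀ c : Cn, c.1 ∈ cnr c.2 → c.1 ∈ Λ → Wf Λ R [c, y] = ep c y * val X c) ∧
      ∀ x ∈ inn Λ, X.sq x ≤ gr U W x := by
  have h := AL.spr_QQ (Λ := Λ) (y.2 ::ₘ R) (A := {y.1}) (by simpa using hΛ) (AL.QQ Λ R 0)
  obtain ⟨Hs, Hf, hH⟩ := P144T.exists_H h
  have hB := P144T.HB.of_spr h hH
  have hv : ∀ c : Cn, c.1 ∈ cnr c.2 → c.1 ∈ Λ → val ⟨_, _, _, _⟩ c =
      AL.QQ Λ (c.2 ::ₘ y.2 ::ₘ R) (c.1 ::ₘ {y.1}) / AL.QQ Λ R 0 := fun c hc =>
    cn_cases (p := fun c => c.1 ∈ Λ → val ⟨xA Λ (y.2 ::ₘ R) {y.1} (AL.QQ Λ R 0),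
      xB Λ (y.2 ::ₘ R) {y.1} (AL.QQ Λ R 0), xC Λ (y.2 ::ₘ R) {y.1} (AL.QQ Λ R 0),
      xD Λ (y.2 ::ₘ R) {y.1} (AL.QQ Λ R 0)⟩ c =
      AL.QQ Λ (c.2 ::ₘ y.2 ::ₘ R) (c.1 ::ₘ {y.1}) / AL.QQ Λ R 0) hc
      (fun x a => by rw [val_A]; exact if_pos a) (fun x a => by rw [val_B]; exact if_pos a)
      (fun x a => by rw [val_C]; exact if_pos a) fun x a => by rw [val_E]; exact if_pos a
  have w : ∀ v : Site, theA {y.1} (v.1 - 1, v.2) = theA {y.1} (v.1 - 1, v.2 - 1) →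
      0 ≤ P144T.hat Λ Hs v - Hs v ∧ P144T.hat Λ Hs v - Hs v ≤ AL.lap (P144T.hat Λ Hs) v :=
    fun v a => ⟨sub_nonneg.2 (hB.le_hat v), P144T.lap_hat h hH a⟩
  have m : ∀ {i j : ℤ}, (i, j) ∈ inn Λ' → ∀ a b : ℤ, i - 2 ≤ a ∧ a ≤ i + 2 ∧ j - 2 ≤ b ∧ b ≤ j + 2 →
      ((a, b) : Site) ∈ Λ := fun a _ _ b => hs (inn_mem a _ _ b)
  refine ⟨_, P144T.hat Λ Hs, Hf, spin_of hy hH ?_ (fun x a => (w x a).1.trans (w x a).2)
    (fun i j a b => P144T.lapf_nonpos h hH (m a _ _ (by omega)) (m a _ _ (by omega))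
      (m a _ _ (by omega)) (m a _ _ (by omega)) b) (fun x a b => ?_) (fun i j a =>
      ⟨h.V i j (mem_hor.2 ⟨m a _ _ (by omega), m a _ _ (by omega)⟩),
        h.H i j (mem_ver.2 ⟨m a _ _ (by omega), m a _ _ (by omega)⟩)⟩)
    (fun i j a _ => P144T.hat_in (hs a)) (fun i j _ => P144T.sqV h hH i j) (fun f a => (hR f a).2)
    ?_, fun c a b => ?_, ?_⟩
  · obtain ⟨M, -, -, a, b⟩ := hB.supp ∅
    exact ⟨M, b, a⟩
  · have s1 := sum_le_sum fun v hv => (w v (b v hv)).2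
    have s0 := sum_nonneg fun v hv => (w v (b v hv)).1
    by_cases c : ∀ u ∈ cnr x, u ∈ Λ
    swap
    · push Not at c
      obtain ⟨u, u1, u2⟩ := c
      linarith [hB.lapf_out u1 u2]
    obtain ⟨i, j⟩ := x
    have c' := fun v hv => c v (mem_cnr.2 hv)
    by_cases hτ : tauR (y.2 ::ₘ R) (i, j) = tauR (y.2 ::ₘ R) (i, j - 1)
    · linarith [P144T.lapf_nonpos h hH (c' _ (by simp)) (c' _ (by simp)) (c' _ (by simp))
        (c' _ (by simp)) hτ]
    have x1 : (i, j) ∈ inn Λ := (hR _ (by_contra fun d => hτ (AL.tauR_step fun e =>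
      (Multiset.mem_cons.1 e).elim a d))).1
    have t := fun v hv => b v (mem_cnr.2 hv)
    have k := P144T.branch_face h hH (i := i) (j := j) (fun _ _ _ _ _ _ => inn_mem x1 _ _ (by omega))
      (t (i, j) (by simp)) (by simpa using t (i + 1, j) (by simp))
      (by simpa using t (i, j + 1) (by simp)) (by simpa using t (i + 1, j + 1) (by simp))
      ((mul_self_eq_mul_self_iff.1 ((h.τ2 _).trans (h.τ2 _).symm)).resolve_left hτ)
    have l := P144T.lapf_upper h hH (c' (i, j) (by simp)) (c' _ (by simp)) (c' _ (by simp))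
      (c' _ (by simp))
    have u : ∀ v ∈ Λ, AL.lap Hs v ≤ AL.lap (P144T.hat Λ Hs) v := fun v hv => by
      unfold AL.lap
      rw [P144T.hat_in hv]
      linarith [hB.le_hat (v.1 + 1, v.2), hB.le_hat (v.1 - 1, v.2), hB.le_hat (v.1, v.2 + 1),
        hB.le_hat (v.1, v.2 - 1)]
    have u' := sum_le_sum fun v hv => u v (c v hv)
    have r : √2 ≤ 10 / 7 := by
      rw [Real.sqrt_le_left (by norm_num)]; norm_num
    have p := mul_le_mul_of_nonneg_right r (AL.sqF_nonneg (xA Λ (y.2 ::ₘ R) {y.1} (AL.QQ Λ R 0))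
      (xB Λ (y.2 ::ₘ R) {y.1} (AL.QQ Λ R 0)) (xC Λ (y.2 ::ₘ R) {y.1} (AL.QQ Λ R 0))
      (xD Λ (y.2 ::ₘ R) {y.1} (AL.QQ Λ R 0)) (i, j))
    rw [AL.sum_cnr] at u'
    unfold AL.sqF at k p
    linarith
  · rw [hv y hy hΛ, AL.QQ_dis_pair, show ({y.1} : Multiset Site) = y.1 ::ₘ 0 from rfl,
      AL.QQ_spin_pair, div_self (AL.QQ_pos Λ R).ne']
  · rw [hv c a b, Wf_two]
  · rintro ⟨i, j⟩ a
    have s1 := (P144T.sqV h hH i (j - 1)).1
    have s2 := (P144T.sqV h hH i j).2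
    rw [sub_add_cancel] at s1
    simp only [gr, D, Fld.sq, Prod.mk_add_mk, Prod.mk_sub_mk, add_zero, sub_zero, sub_add_cancel,
      P144T.hat_in (inn_mem a i j (by omega)), P144T.hat_in (inn_mem a (i + 1) j (by omega)),
      P144T.hat_in (inn_mem a i (j + 1) (by omega)),
      P144T.hat_in (inn_mem a (i + 1) (j + 1) (by omega))]
    linarith

theorem ks_dis (hs : Λ' ⊆ Λ) (hR : ∀ f ∈ R, f ∈ inn Λ ∧ f ∉ Λ') :
    KS Λ' R fun c y => Wf Λ R [c, y] := fun _ a b =>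
  let ⟨X, U, W, h1, h2, _⟩ := spin_dis hs hR a (hs (cnr_inn a b))
  ⟨X, U, W, h1, fun c c1 c2 => h2 c c1 (hs (cnr_inn c1 c2))⟩

/-- The entry between a disorder and a leg of an energy. -/
theorem wf_se : ∃ C : ℝ, 0 ≤ C ∧ ∀ (Λ Λ' : Finset Site) (R : Multiset Site), Λ' ⊆ Λ →
    (∀ f ∈ R, f ∈ inn Λ ∧ f ∉ Λ') → ∀ (y : Cn) (f : Site) (d : ℕ), y.1 ∈ cnr y.2 → f ∈ R → 400 ≤ d →
      (∀ v, zd v y.2 ≤ d → v ∈ Λ') → Wf Λ R [(f, f), y] ^ 2 ≤ C / d := by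
  obtain ⟨K, Q, κ, K0, hQ⟩ := exists_Q
  refine ⟨10 ^ 36 * K, by positivity, fun Λ Λ' R hs hR y f d hy hf hd hp => ?_⟩
  have i1 : ∀ {x : Site}, zd x y.2 + 2 ≤ d → x ∈ inn Λ' := fun b v hv => hp v (by
    rw [mem_bx] at hv
    unfold zd at b ⊢
    omega)
  obtain ⟨X, U, W, h1, h2, h3⟩ := spin_dis hs hR hy (hs (cnr_inn hy (i1 (by rw [zd_self]; omega))))
  have y0 : y.1 - y.2 ∈ cnr 0 := by
    rw [mem_cnr] at hy ⊢
    simp only [Prod.ext_iff, Prod.fst_sub, Prod.snd_sub, Prod.fst_zero, Prod.snd_zero] at hy ⊢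
    omega
  have hn : 4 ≤ d / 100 := by omega
  have b0 : ∀ x, x ∈ bx (f - y.2) 0 ↔ x = f - y.2 := fun x => by
    simp only [mem_bx, Prod.ext_iff]
    omega
  have m := ((h1.glue hn (fun x hx => i1 (by
    rw [mem_bx] at hx
    unfold zd
    omega)) (hQ _ y0).1).main hn fun x _ b => (hQ _ y0).2 _ x (by omega) b).2 (f - y.2) 0
      (fun x => X.sq (x + y.2)) fun x hx => by
        rw [(b0 x).1 hx, gr_sh, sub_add_cancel]
        refine ⟨fun e => (hR f hf).2 (hp f ?_), h3 f (hR f hf).1⟩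
        simp only [mem_bx, Prod.fst_sub, Prod.snd_sub, Prod.fst_zero, Prod.snd_zero] at e
        unfold zd
        omega
  rw [show bx (f - y.2) 0 = {f - y.2} from Finset.ext fun x => by rw [b0, mem_singleton],
    sum_singleton, sub_add_cancel] at m
  have d0 : (0 : ℝ) < d := by exact_mod_cast (by omega)
  have n0 : (0 : ℝ) < (d / 100 : ℕ) := by exact_mod_cast (by omega)
  have dn : (d : ℝ) ≤ 200 * (d / 100 : ℕ) := by exact_mod_cast (by omega)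
  rw [h2 (f, f) (AL.eLo_cnr f) ((hR f hf).1 f (H170.self_mem_bx _ _)), mul_pow, sq (ep _ y), AL.ep_sq,
    one_mul]
  refine ((val_sq X _).trans m).trans ?_
  rw [sq, ← div_div, mul_div_cancel₀ _ n0.ne', Nat.cast_zero, zero_add, mul_right_comm,
    ← mul_div_assoc, div_le_div_iff₀ n0 d0]
  nlinarith [mul_le_mul_of_nonneg_left dn K0, mul_nonneg K0 n0.le]

/-- The entry between two disorders. -/
theorem wf_ss (hR : R.Nodup) {v f : Site} (hv : v ∈ inn Λ) (hf : f ∈ Λ)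
    (h : ∀ r ∈ R, r ∈ inn Λ ∧ v ∉ cnr r) : |Wf Λ (v ::ₘ R) [(f, f), (v, v)]| ≤ 10 ^ 4 := by
  classical
  have v0 := hv v (H170.self_mem_bx _ _)
  have hs := AL.spr_QQ (Λ := Λ) R (A := {v}) (by simpa using v0) (AL.zj Λ R v)
  obtain ⟨Hs, Hf, hH⟩ := P144T.exists_H hs
  have i : ∀ {w : Site}, w ∈ inn Λ → ∀ x : Site, |x.1 - w.1| ≤ 2 → |x.2 - w.2| ≤ 2 → x ∈ Λ :=
    fun hw x a b => hw x (by
      rw [abs_le] at a b
      rw [mem_bx]
      omega)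
  have hE : P144G.Exg Λ (tauR R) (theA {v}) {v} R.toFinset R.toFinset :=
    ⟨fun i j a => AL.theA_step (by simpa using a), fun i j a => AL.tauR_step (by simpa using a),
      fun w hw x a b => i (mem_singleton.1 hw ▸ hv) x (by omega) (by omega),
      fun w hw => i (h w (by simpa using hw)).1, subset_rfl,
      fun f hf => AL.tauR_branch hR (i := f.1) (j := f.2) (by simpa using hf),
      fun f hf w hw hw' => (h f (by simpa using hf)).2 (mem_singleton.1 hw' ▸ hw)⟩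
  have m := P144T.mass hs hH hE
  simp only [sum_singleton, Finset.sdiff_self, sum_empty] at m
  have q := AL.sqS_Xj Λ R v v0
  have k := (single_le_sum (f := fun x => xA Λ R {v} (AL.zj Λ R v) x ^ 2)
    (fun _ _ => sq_nonneg _) (H170.self_mem_bx f 0)).trans ((sum_le_sum fun x _ => by
      nlinarith).trans (P144T.sum_sq_box hs hH (M := 752 * 49) (fun T => by linarith [(m T).1])
        (fun T => by linarith [(m T).2]) f 0))
  have e : Wf Λ (v ::ₘ R) [(f, f), (v, v)] = ep (f, f) (v, v) * xA Λ R {v} (AL.zj Λ R v) f := by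
    rw [xA, if_pos hf, ← AL.QQ_dis_pair Λ (f ::ₘ R) _ v, Multiset.cons_swap v f,
      Multiset.cons_swap v f, Wf_two]
    rfl
  refine abs_le_of_sq_le_sq ?_ (by positivity)
  rw [e, mul_pow, sq (ep _ _), AL.ep_sq, one_mul]
  exact k.trans (by norm_num)

end Vale.Agent.P144DQ
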