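import Vale.Agent.P144DQ.Exp
import Vale.Agent.P144DQ.Defs

/-!
The subtraction of pairs: lists of pairs, isolated pairs.
-/

namespace Vale.Agent.P144DQ

open Finset Vale.Agent.P144 Vale.Agent.P144DR
open Vale.Agent.P144.AL (Pf cenK flat flat_cons)
open Vale.Agent.P144Z (zd)

variable {m : ℕ} {T : Finset (Fin m)} {c : Finset (Fin m) → ℝ} {w w' : Fin m × Fin m → ℝ}

theorem Ex_congr (h : ∀ e : Fin m × Fin m, e.1 ∈ T → e.2 ∈ T → e.1 < e.2 → w e = w' e) :
    Ex w c T = Ex w' c T :=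
  sum_congr rfl fun _ hP => congrArg (· * _) (prod_congr rfl fun e he =>
    have a := (mem_mat.1 hP).1 e he
    congrArg _ (h e a.1.1 a.1.2 a.2))

theorem Ex_single {q : Fin m × Fin m} (h1 : q.1 ∈ T) (h2 : q.2 ∈ T) (h : q.1 < q.2) (g : ℝ) :
    Ex (Pi.single q g) c T = c T - g * c (T \ {q.1, q.2}) := by
  rw [Ex_eq, sum_eq_add_of_mem ∅ {q} (empty_mat T) (by simp [mem_mat, h1, h2, h])
    (singleton_ne_empty q).symm fun P _ hP => ?_]
  · simp [su, sub_eq_add_neg]
  · obtain ⟨e, he, ne⟩ : ∃ e ∈ P, e ≠ q := by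
      by_contra! a
      exact (subset_singleton_iff.1 fun e he => mem_singleton.2 (a e he)).elim hP.1 hP.2
    rw [prod_eq_zero he (by simp [ne]), zero_mul]

theorem Ex_EL (G : Fin m × Fin m → ℝ) (c : Finset (Fin m) → ℝ) (L : List (Fin m × Fin m))
    (hL : (flat Prod.fst Prod.snd L).Nodup) (h : ∀ q ∈ L, q.1 < q.2) (S : Finset (Fin m))
    (hS : ∀ k ∈ S, k ∉ flat Prod.fst Prod.snd L) :
    Ex (fun e => if e ∈ L then G e else 0) c (S ∪ (flat Prod.fst Prod.snd L).toFinset) =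
      EL G (fun s => c (S ∪ s.toFinset)) L := by
  induction L generalizing S with
  | nil => simpa [EL, flat, Pi.zero_def] using Ex_zero c S
  | cons q L ih =>
    simp only [flat_cons, List.nodup_cons, List.mem_cons, not_or] at hL hS
    have n : q ∉ L := fun a => hL.1.2 (List.mem_flatMap.2 ⟨q, a, by simp⟩)
    have ih := ih hL.2.2 fun e he => h e (List.mem_cons_of_mem _ he)
    have e1 : (fun e => if e ∈ q :: L then G e else 0) =
        Pi.single q (G q) + fun e => if e ∈ L then G e else 0 := by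
      funext e
      by_cases a : e = q <;> simp [a, n]
    have e2 : (S ∪ (flat Prod.fst Prod.snd (q :: L)).toFinset) \ {q.1, q.2} =
        S ∪ (flat Prod.fst Prod.snd L).toFinset := by
      ext k
      have := hS k
      simp only [flat_cons, List.toFinset_cons, Finset.mem_sdiff, mem_union, mem_insert,
        List.mem_toFinset, mem_singleton]
      grind
    have e3 : ∀ s : List (Fin m), S ∪ (q.1 :: q.2 :: s).toFinset =
        insert q.1 (insert q.2 S) ∪ s.toFinset := fun s => by simp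
    rw [e1, Ex_add, Ex_single (by simp [flat_cons]) (by simp [flat_cons])
      (h q (List.mem_cons_self ..)), e2, ih S fun k hk => (hS k hk).2.2, flat_cons, e3, ih, EL]
    · simp only [e3]
    · simp only [mem_insert, forall_eq_or_imp]
      exact ⟨hL.1.2, hL.2.1, fun k hk => (hS k hk).2.2⟩

theorem Ex_le {v : Fin m → ℝ} {B : ℝ} (hv : ∀ k, 0 ≤ v k) (hB : 0 ≤ B)
    (h1 : ∀ e : Fin m × Fin m, e.1 ∈ T → e.2 ∈ T → e.1 < e.2 → |w e| ≤ v e.1 * v e.2)
    (h2 : ∀ A ⊆ T, |c A| ≤ B * ∏ k ∈ A, v k) : |Ex w c T| ≤ 2 ^ (m * m) * (B * ∏ k ∈ T, v k) := by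
  refine (abs_sum_le_sum_abs _ _).trans ((sum_le_card_nsmul _ _ (B * ∏ k ∈ T, v k)
    fun P hP => ?_).trans ?_)
  · rw [mem_mat] at hP
    have s : su P ⊆ T := fun k hk => by
      obtain ⟨e, he, rfl | rfl⟩ := mem_su.1 hk
      exacts [(hP.1 e he).1.1, (hP.1 e he).1.2]
    rw [abs_mul, abs_prod, ← prod_sdiff s, su, prod_biUnion fun e he e' he' => hP.2 e he e' he',
      ← mul_assoc, mul_comm]
    refine mul_le_mul (h2 _ sdiff_subset) (prod_le_prod (fun _ _ => abs_nonneg _) fun e he => ?_)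
      (prod_nonneg fun _ _ => abs_nonneg _) (mul_nonneg hB (prod_nonneg fun k _ => hv k))
    rw [abs_neg, prod_pair (hP.1 e he).2.ne]
    exact h1 e (hP.1 e he).1.1 (hP.1 e he).1.2 (hP.1 e he).2
  · rw [nsmul_eq_mul]
    refine mul_le_mul_of_nonneg_right ?_ (mul_nonneg hB (prod_nonneg fun k _ => hv k))
    have := card_le_univ (mat T)
    simp only [Fintype.card_finset, Fintype.card_prod, Fintype.card_fin] at this
    exact_mod_cast this

theorem zd_tri (u v w : Site) : zd u w ≤ zd u v + zd v w := by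
  unfold zd
  omega

/-- `k` and `l` are nearer to each other than to the other points. -/
def Iso (y : Fin m → Site) (T : Finset (Fin m)) (k l : Fin m) : Prop :=
  ∀ i ∈ T, i ≠ k → i ≠ l → zd (y k) (y l) < zd (y k) (y i) ∧ zd (y k) (y l) < zd (y l) (y i)

variable {y : Fin m → Site} {k l : Fin m}

theorem Iso.symm (h : Iso y T k l) : Iso y T l k := fun i a b d => by
  rw [P144DC.zd_symm (y l) (y k)]
  exact (h i a d b).symm

theorem Iso.eq {i : Fin m} (h : Iso y T k l) (h' : Iso y T k i) (hl : l ∈ T) (hi : i ∈ T)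
    (h1 : l ≠ k) (h2 : i ≠ k) : l = i :=
  by_contra fun a => lt_asymm (h i hi h2 (Ne.symm a)).1 (h' l hl h1 a).1

theorem Scal.iso {r : ℕ} {t u : Fin m → ℕ} (h : Scal y T r t u) (hk : k ∈ T) (hl : l ∈ T)
    (ne : k ≠ l) (hi : ¬ Iso y T k l) : u k ≤ 2 * zd (y k) (y l) := by
  unfold Iso at hi
  push Not at hi
  obtain ⟨i, a, b, d, e⟩ := hi
  have := h.hu k hk l hl i a ne b.symm d.symm
  have := zd_tri (y k) (y l) (y i)
  omega

open Classical in
/-- The isolated pairs in `A`. -/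
noncomputable def isL (y : Fin m → Site) (T A : Finset (Fin m)) : List (Fin m × Fin m) :=
  (univ.filter fun e => (e.1 ∈ A ∧ e.2 ∈ A) ∧ e.1 < e.2 ∧ Iso y T e.1 e.2).toList

theorem mem_isL {A : Finset (Fin m)} {e : Fin m × Fin m} :
    e ∈ isL y T A ↔ (e.1 ∈ A ∧ e.2 ∈ A) ∧ e.1 < e.2 ∧ Iso y T e.1 e.2 := by simp [isL]

theorem isL_nodup {A : Finset (Fin m)} (h : A ⊆ T) :
    (flat Prod.fst Prod.snd (isL y T A)).Nodup := by
  refine List.nodup_flatMap.2 ⟨fun e he => by simpa using (mem_isL.1 he).2.1.ne,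
    (nodup_toList _).pairwise_of_forall_ne fun ⟨a, b⟩ he ⟨c, d⟩ he' ne => ?_⟩
  obtain ⟨⟨a1, a2⟩, a3, a4⟩ := mem_isL.1 he
  obtain ⟨⟨b1, b2⟩, b3, b4⟩ := mem_isL.1 he'
  simp only [Function.onFun, List.disjoint_cons_left, List.mem_cons, List.not_mem_nil, or_false,
    not_or, List.disjoint_nil_left, and_true, ne_eq, Prod.mk.injEq] at *
  refine ⟨⟨?_, ?_⟩, ?_, ?_⟩ <;> rintro rfl
  · exact ne ⟨rfl, a4.eq b4 (h a2) (h b2) a3.ne' b3.ne'⟩
  · exact lt_asymm a3 (a4.eq b4.symm (h a2) (h b1) a3.ne' b3.ne ▸ b3)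
  · exact lt_asymm b3 (a4.symm.eq b4 (h a1) (h b2) a3.ne b3.ne' ▸ a3)
  · exact ne ⟨a4.symm.eq b4.symm (h a1) (h b1) a3.ne b3.ne, rfl⟩

end Vale.Agent.P144DQ
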