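import Vale.Agent.P144DQ.Sec
import Vale.Agent.P144DC.Lat
import Vale.Agent.P144DV.Main

/-!
The bound on the lattice from the mixtures of Pfaffians.
-/

namespace Vale.Agent.P144DQ

open Finset Filter Topology Vale.Agent.P144 Vale.Agent.P144DR
open Vale.Agent.P144.AL (Pf cenK flat flat_cons sumE Pf_cons)
open Vale.Agent.P144Z (zd)
open Vale.Agent.P144DC (en gb gibbs_aff abs_en)

theorem Pf_nil {α : Type*} (K : α → α → ℝ) : Pf K [] = 1 := by rw [Pf]

/-- The representation for `n` spins. -/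
def RN (J : ℝ) (b : Option Config) (τ : Site × Fin 2 × Bool → Site × Fin 2 × Bool → ℝ)
    (R₀ n : ℕ) (C : ℝ) : Prop :=
  ∀ (m : ℕ) (Λ : Finset Site) (x : Fin n → Site) (y : Fin m → Site) (j : Fin m → Fin 2)
    (T : Finset (Fin m)) (r : ℕ), R₀ ≤ r → Far Λ x y T r → ∃ (I : Finset (Finset Site))
      (ω : Finset Site → ℝ) (p : List (Fin n)) (K : Finset Site → Lab n m → Lab n m → ℝ), p.Nodup ∧
      (∑ S ∈ I, |ω S|) * (r : ℝ) ^ ((n : ℝ) / 8) ≤ C ∧ (∀ S ∈ I, KB C r τ y j T p (K S)) ∧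
      ∀ s : List (Fin m), s.Nodup → (∀ k ∈ s, k ∈ T) → ∀ t : Fin m → ℝ,
        gb J b Λ (fun σ => (∏ i, sp (σ (x i))) * (s.map fun k => en (y k) (j k) σ - t k).prod) =
          ∑ S ∈ I, ω S * Pf (cenK (K S) lo hi t s) (p.map .inl ++ flat lo hi s)

variable {J C C₀ : ℝ} {b : Option Config} {τ : Site × Fin 2 × Bool → Site × Fin 2 × Bool → ℝ}
  {R₀ n m r : ℕ} {Λ : Finset Site} {y : Fin m → Site} {T : Finset (Fin m)}

theorem RN.nonneg (h : RN J b τ R₀ n C) (x : Fin n → Site) (j : Fin m → Fin 2) (hr : R₀ ≤ r)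
    (hF : Far Λ x y T r) : 0 ≤ C := by
  obtain ⟨I, ω, p, K, -, h1, -⟩ := h m Λ x y j T r hr hF
  exact le_trans (by positivity) h1

theorem mix_le {I : Finset (Finset Site)} {ω f : Finset Site → ℝ} {D : ℝ} (hD : 0 ≤ D)
    (h : ∑ S ∈ I, |ω S| ≤ C) (hf : ∀ S ∈ I, |f S| ≤ D) : |∑ S ∈ I, ω S * f S| ≤ C * D :=
  (abs_sum_le_sum_abs _ _).trans ((sum_le_sum fun S hS => (abs_mul _ _).trans_le
    (mul_le_mul_of_nonneg_left (hf S hS) (abs_nonneg _))).trans
      ((sum_mul ..).symm.trans_le (mul_le_mul_of_nonneg_right h hD)))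

theorem RN.one (h : RN J b τ R₀ 0 C) (j : Fin m → Fin 2) (hr : R₀ ≤ r)
    (hy : ∀ k ∈ T, ∀ v, zd v (y k) ≤ r → v ∈ Λ) {k : Fin m} (hk : k ∈ T) :
    |gb J b Λ (en (y k) (j k)) - τ (y k, j k, false) (y k, j k, true)| ≤ C * C / r := by
  have hF : Far Λ Fin.elim0 y T r := ⟨(·.elim0), hy, (·.elim0), (·.elim0)⟩
  obtain ⟨I, ω, p, K, -, h1, h2, h3⟩ := h m Λ _ y j T r hr hF
  have e := h3 [k] (by simp) (by simpa using hk) fun k => τ (y k, j k, false) (y k, j k, true)
  have e2 := gibbs_aff (J := J) (lam := 0) (β := Kc / J) (V := fun _ => 0) b Λ 1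
    (-τ (y k, j k, false) (y k, j k, true)) (en (y k) (j k))
  obtain rfl : p = [] := List.eq_nil_iff_forall_not_mem.2 (·.elim0)
  simp only [univ_eq_empty, prod_empty, one_mul, List.map_cons, List.map_nil, List.prod_cons,
    List.prod_nil, mul_one, List.nil_append, flat, List.flatMap_cons, List.flatMap_nil,
    List.append_nil, Pf_cons, sumE, Pf_nil, sub_zero, ← sub_eq_add_neg,
    cen_diag (List.nodup_singleton k) (List.mem_singleton_self k)] at e e2
  rw [e2.symm.trans e, mul_div_assoc]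
  refine mix_le (div_nonneg (h.nonneg _ j hr hF) (Nat.cast_nonneg _)) (by simpa using h1)
    fun S hS => ?_
  obtain ⟨η, -, a, c⟩ := (h2 S hS).ee k hk k hk
  simpa only [a rfl, one_mul, lo, hi] using c false true

variable (hτ : ∀ c c', |τ c c'| ≤ C₀ / (zd c.1 c'.1 + 1))

include hτ

theorem RN.fin (h : RN J b τ R₀ 0 C) {y : Fin 2 → Site} (j : Fin 2 → Fin 2) (hr : R₀ ≤ r)
    (h0 : 1 ≤ r) (hy : ∀ k v, zd v (y k) ≤ r → v ∈ Λ) :
    |gE (gb J b Λ) (y 0) (j 0) (y 1) (j 1) - cy fun c c' => τ (y 0, j 0, c) (y 1, j 1, c')| ≤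
      C * ((C + C * C) ^ 2 + 4 * (C₀ + C) * C) / r := by
  have hF : Far Λ Fin.elim0 y univ r := ⟨(·.elim0), fun k _ => hy k, (·.elim0), (·.elim0)⟩
  have C0 := h.nonneg _ j hr hF
  have o := fun k => h.one j hr hF.hy (mem_univ k)
  obtain ⟨I, ω, p, K, -, h1, h2, h3⟩ := h 2 Λ _ y j univ r hr hF
  have e := h3 [0, 1] (by simp) (by simp) fun k => gb J b Λ (en (y k) (j k))
  have e1 := h3 [] (by simp) (by simp) 0
  have e2 := gibbs_aff (J := J) (lam := 0) (β := Kc / J) (V := fun _ => 0) b Λ 0 1 1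
  obtain rfl : p = [] := List.eq_nil_iff_forall_not_mem.2 (·.elim0)
  have off : ∀ S t c c', cenK (K S) lo hi t [0, 1] (.inr (0, c)) (.inr (1, c')) =
      K S (.inr (0, c)) (.inr (1, c')) := fun S t c c' => cen_off (by simp [lo, hi])
  have di := fun S t k hk => cen_diag (K := K S) (t := t) (s := [0, 1]) (by simp) (k := k) hk
  simp only [univ_eq_empty, prod_empty, one_mul, List.map_cons, List.map_nil, List.prod_cons,
    List.prod_nil, mul_one, List.nil_append, flat, List.flatMap_cons, List.flatMap_nil,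
    List.append_nil, List.cons_append, Pf_cons, sumE, Pf_nil, sub_zero, zero_mul, zero_add,
    di _ _ 0 (by simp), di _ _ 1 (by simp)] at e e1 e2
  simp only [lo, hi, off] at e
  have r1 : (1 : ℝ) ≤ r := by exact_mod_cast h0
  have c0 : 0 ≤ C₀ := by
    simpa [P144DC.zd_self] using (abs_nonneg _).trans (hτ (0, 0, true) (0, 0, true))
  rw [gE, e, ← one_mul (cy _), e2.symm.trans e1, sum_mul, ← sum_sub_distrib, mul_div_assoc]
  simp only [← mul_sub]
  refine mix_le (by positivity) (by simpa using h1) fun S hS => ?_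
  have d : ∀ k, |K S (.inr (k, false)) (.inr (k, true)) - gb J b Λ (en (y k) (j k))| ≤
      (C + C * C) / r := fun k => by
    obtain ⟨η, -, a, c⟩ := (h2 S hS).ee k (mem_univ _) k (mem_univ _)
    have c := c false true
    rw [a rfl, one_mul] at c
    refine (abs_sub_le _ (τ (y k, j k, false) (y k, j k, true)) _).trans ?_
    rw [add_div, abs_sub_comm _ (gb ..)]
    exact add_le_add c (o k)
  obtain ⟨η, a, -, c⟩ := (h2 S hS).ee 0 (mem_univ _) 1 (mem_univ _)
  have c := (cy_le (δ := C₀) a c fun c c' => (hτ _ _).trans (div_le_self c0 (by simp))).2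
  have d := mul_le_mul (d 0) ((d 1).trans (div_le_self (by positivity) r1)) (abs_nonneg _)
    (by positivity)
  have f := mul_le_mul_of_nonneg_right (div_le_self C0 r1) (div_nonneg C0 (Nat.cast_nonneg r))
  rw [← abs_mul] at d
  rw [cy] at c
  rw [abs_le] at c d ⊢
  simp only [div_eq_mul_inv] at c d f ⊢
  constructor <;> linarith [c.1, c.2, d.1, d.2]

theorem RN.two (hJ : 0 < J) (h : RN J b τ R₀ 0 C) {μ : MeasureTheory.Measure Config}
    (hμ : IsPlaneState J 0 (fun _ => 0) (Kc / J) μ) (v : Site) (i : Fin 2) (w : Site) (i' : Fin 2) :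
    gE (fun F => ∫ σ, F σ ∂μ) v i w i' = cy fun c c' => τ (v, i, c) (w, i', c') := by
  have k := P144DV.cc_lim hJ hμ b ![v, w] ![i, i'] [0, 1]
  simp only [P144DV.cc, List.map_cons, List.map_nil, List.prod_cons, List.prod_nil, mul_one] at k
  refine eq_of_abs_sub_nonpos (ge_of_tendsto (tendsto_const_div_atTop_nhds_zero_nat
    (C * ((C + C * C) ^ 2 + 4 * (C₀ + C) * C))) ?_)
  filter_upwards [eventually_ge_atTop R₀, eventually_ge_atTop 1] with r h1 h2
  refine le_of_tendsto (k.sub_const _).abs ?_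
  filter_upwards [P144DV.ev_box ![v, w] r] with M hM using h.fin hτ ![i, i'] h1 h2 hM

theorem RN.main {C' γ : ℝ} (h : RN J b τ R₀ n C) (h' : RN J b τ R₀ 0 C') {x : Fin n → Site}
    (j : Fin m → Fin 2) (hr : R₀ ≤ r) (h0 : 1 ≤ r) (hF : Far Λ x y T r) {a u : Fin m → ℕ}
    (hS : Scal y T r a u) (hγ : 4 * (C₀ + C + C' * C') + 1 ≤ γ) :
    |Ex (fun e => cy fun c c' => τ (y e.1, j e.1, c) (y e.2, j e.2, c')) (lcS (gb J b Λ) x y j) T| *
      (r : ℝ) ^ ((n : ℝ) / 8) ≤ C * (2 ^ (m * m) * (6 ^ m * ((n + 2 * m).factorial * γ ^ n) *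
        ∏ k ∈ T, wt γ (min (a k) (u k)) * wt γ (u k))) := by
  classical
  have C0 := h.nonneg _ j hr hF
  have c0 : 0 ≤ C₀ := by
    simpa [P144DC.zd_self] using (abs_nonneg _).trans (hτ (0, 0, true) (0, 0, true))
  have c1 := mul_self_nonneg C'
  have γ0 : 0 ≤ γ := by linarith
  have w2 : ∀ q q', 0 ≤ wt γ q * wt γ q' := fun _ _ => mul_nonneg (wt_nn _ _) (wt_nn _ _)
  obtain ⟨I, ω, p, K, hp, h1, h2, h3⟩ := h m Λ x y j T r hr hF
  set G : Fin m × Fin m → ℝ := fun e => cy fun c c' => τ (y e.1, j e.1, c) (y e.2, j e.2, c')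
    with hG
  have e : G = (fun e => if Iso y T e.1 e.2 then 0 else G e) +
      fun e => if Iso y T e.1 e.2 then G e else 0 := by
    funext e
    by_cases c : Iso y T e.1 e.2 <;> simp [c]
  have Ω := sum_nonneg (s := I) fun S _ => abs_nonneg (ω S)
  have key := Ex_le (T := T) (w := fun e => if Iso y T e.1 e.2 then 0 else G e)
    (c := Ex (fun e => if Iso y T e.1 e.2 then G e else 0) (lcS (gb J b Λ) x y j))
    (B := (∑ S ∈ I, |ω S|) * (6 ^ m * ((n + 2 * m).factorial * γ ^ n)))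
    (fun k => w2 (min (a k) (u k)) (u k)) (by positivity) (fun e a1 a2 a3 => ?_) fun A hA => ?_
  · rw [← Ex_add, ← e] at key
    refine (mul_le_mul_of_nonneg_right key (by positivity)).trans (le_trans (le_of_eq (by ring))
      (mul_le_mul_of_nonneg_right h1 ?_))
    have := prod_nonneg (s := T) fun k _ => w2 (min (a k) (u k)) (u k)
    positivity
  · split_ifs with c
    · rw [abs_zero]
      exact mul_nonneg (w2 _ _) (w2 _ _)
    have b1 := sz2 C0 c0 hγ c1 h0 hS a1 a2 le_rfl (hS.iso a1 a2 a3.ne c) le_rfl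
      (hS.iso a2 a1 a3.ne' fun g => c g.symm)
    have b2 := b1.trans (mul_le_mul (wt_le γ0 (min_le_right (a e.1) _))
      (wt_le γ0 (min_le_right (a e.2) _)) (wt_nn _ _) (wt_nn _ _))
    have b3 := (cy_le (f := fun c c' => τ (y e.1, j e.1, c) (y e.2, j e.2, c')) (g := 0) (δ := 0)
      (ε := C₀ / (zd (y e.1) (y e.2) + 1)) (one_mul 1) (fun c c' => by simpa using hτ _ _)
      (by simp)).2
    have b4 : 0 ≤ C / r := by positivity
    rw [show cy 0 = 0 by simp [cy], sub_zero] at b3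
    rw [mul_mul_mul_comm]
    exact b3.trans (mul_le_mul (by linarith) (by linarith) (by positivity) (w2 _ _))
  · set L := isL y T A with hL
    set S := A \ (flat Prod.fst Prod.snd L).toFinset with hS'
    have sub : ∀ k ∈ flat Prod.fst Prod.snd L, k ∈ A := fun k c => by
      obtain ⟨q, h1, h2⟩ := List.mem_flatMap.1 c
      simp only [List.mem_cons, List.not_mem_nil, or_false] at h2
      rcases h2 with rfl | rfl
      exacts [(mem_isL.1 h1).1.1, (mem_isL.1 h1).1.2]
    have eA : S ∪ (flat Prod.fst Prod.snd L).toFinset = A :=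
      sdiff_union_of_subset fun k hk => sub k (List.mem_toFinset.1 hk)
    have dS : ∀ k ∈ S, k ∉ flat Prod.fst Prod.snd L := fun k hk c =>
      (Finset.mem_sdiff.1 hk).2 (List.mem_toFinset.2 c)
    have nd : (S.toList ++ flat Prod.fst Prod.snd L).Nodup := List.nodup_append.2
      ⟨nodup_toList _, isL_nodup hA, fun k hk l hl e => dS k (mem_toList.1 hk) (e ▸ hl)⟩
    have sA : ∀ k ∈ S.toList, k ∈ A := fun k hk => (Finset.mem_sdiff.1 (mem_toList.1 hk)).1
    have pr : ∀ {s : List (Fin m)}, (S.toList ++ s).Nodup → ∀ f : Fin m → ℝ,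
        ∏ k ∈ S ∪ s.toFinset, f k = ((S.toList ++ s).map f).prod := fun hs f => by
      rw [← List.prod_toFinset _ hs, List.toFinset_append, toList_toFinset]
    rw [Ex_congr (w' := fun e => if e ∈ L then G e else 0) fun e a1 a2 a3 => by
      simp only [hL, mem_isL, a1, a2, a3, true_and], ← eA, Ex_EL G _ L (isL_nodup hA)
      (fun q hq => (mem_isL.1 hq).2.1) S dS, pr nd, EL_congr (g := fun s => ∑ i ∈ I, ω i *
        Pf (cenK (K i) lo hi (fun k => gb J b Λ (en (y k) (j k))) (List.finRange m))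
          (p.map .inl ++ flat lo hi S.toList ++ flat lo hi s)) fun s hs => ?_, EL_sum]
    · simp only [EL_mul, mul_assoc]
      refine mix_le ?_ le_rfl fun i hi => sec_le hτ C0 c0 hγ c1 h0 hS (h2 i hi) hp
        (fun k hk => h'.one j hr hF.hy hk) hA nd sA
      rw [← pr nd]
      have := prod_nonneg (s := S ∪ (flat Prod.fst Prod.snd L).toFinset) fun k _ =>
        w2 (min (a k) (u k)) (u k)
      positivity
    · have n1 := nd.sublist (hs.append_left _)
      simp only [lcS, pr n1]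
      rw [h3 _ n1 fun k hk => hA ((List.mem_append.1 hk).elim (sA k) fun c => sub k (hs.subset c))]
      simp only [cen_all n1]
      simp only [AL.flat_append, List.append_assoc]

omit hτ in
theorem one_b (hJ : 0 < J) (h : Rep J b) (n m : ℕ) : ∃ C : ℝ, ∀ μ,
    IsPlaneState J 0 (fun _ => 0) (Kc / J) μ → ∀ Λ : Finset Site,
      LatW (gb J b Λ) (fun F => ∫ σ, F σ ∂μ) Λ n m C := by
  obtain ⟨C₀, R₀, τ, hτ, h⟩ := h
  obtain ⟨C, h1⟩ : ∃ C, RN J b τ R₀ n C := h n
  obtain ⟨C', h0⟩ : ∃ C, RN J b τ R₀ 0 C := h 0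
  obtain ⟨γ, γ1, hγ⟩ : ∃ γ : ℝ, 1 ≤ γ ∧ 4 * (C₀ + C + C' * C') + 1 ≤ γ :=
    ⟨_, le_max_left _ _, le_max_right _ _⟩
  refine ⟨max (2 ^ n * (C * (2 ^ (m * m) * (6 ^ m * ((n + 2 * m).factorial * γ ^ n) * γ ^ m))))
    (2 ^ (m * m) * 2 ^ m * (R₀ + 1) ^ n * (R₀ + 1) ^ m), fun μ hμ Λ x y j T r a u hF hS => ?_⟩
  have cT : T.card ≤ m := by simpa using card_le_univ T
  have rp : ∀ z : ℝ, 1 ≤ z → z ^ ((n : ℝ) / 8) ≤ z ^ n := fun z hz => by
    rw [← Real.rpow_natCast]
    exact Real.rpow_le_rpow_of_exponent_le hz (div_le_self (Nat.cast_nonneg _) (by norm_num))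
  rcases le_or_gt (R₀ + 1) r with hr | hr
  · refine le_max_of_le_left ?_
    have k := h1.main hτ h0 j (by omega) (by omega) hF hS hγ
    have C0 := h1.nonneg _ j (by omega) hF
    have e1 : ((r : ℝ) + 1) ^ ((n : ℝ) / 8) ≤ 2 ^ n * (r : ℝ) ^ ((n : ℝ) / 8) := by
      refine (Real.rpow_le_rpow (by positivity) (show _ ≤ 2 * (r : ℝ) by
        exact_mod_cast (by omega)) (by positivity)).trans ?_
      rw [Real.mul_rpow zero_le_two (Nat.cast_nonneg _)]
      exact mul_le_mul_of_nonneg_right (rp 2 one_le_two) (by positivity)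
    have e2 : (∏ k ∈ T, wt γ (min (a k) (u k)) * wt γ (u k)) *
        ∏ k ∈ T, √(((a k : ℝ) + 1) * (u k + 1)) ≤ γ ^ m := by
      rw [← prod_mul_distrib, prod_congr rfl (g := fun _ => γ) fun k hk => ?_, prod_const]
      · exact pow_le_pow_right₀ γ1 cT
      rw [min_eq_left (hS.le k hk).1, wt, wt, ← Real.sqrt_mul (by positivity),
        ← Real.sqrt_mul (by positivity), Real.sqrt_eq_iff_mul_self_eq (by positivity) (by linarith)]
      field_simp
    simp only [h0.two hτ hJ hμ]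
    refine (mul_le_mul_of_nonneg_right ((mul_le_mul_of_nonneg_left e1 (abs_nonneg _)).trans
      ((mul_left_comm ..).trans_le (mul_le_mul_of_nonneg_left k (by positivity))))
      (by positivity)).trans (le_trans (le_of_eq (by ring)) (mul_le_mul_of_nonneg_left
        (mul_le_mul_of_nonneg_left (mul_le_mul_of_nonneg_left (mul_le_mul_of_nonneg_left e2 ?_) ?_)
          C0) ?_)) <;> positivity
  · refine le_max_of_le_right ?_
    have two : ∀ {E : (Config → ℝ) → ℝ}, P144F.IsSt E → ∀ v i σ, |en v i σ - E (en v i)| ≤ 2 :=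
      fun hE v i σ => (abs_sub _ _).trans (by
        linarith [abs_en v i σ, hE.abs_le fun σ => (abs_en v i σ).le])
    have s1 : P144F.IsSt fun F => ∫ σ, F σ ∂μ := ⟨μ, hμ.1, fun _ => rfl⟩
    have s2 : P144F.IsSt (gb J b Λ) := P144F.isSt_gibbs ..
    have k := Ex_le (T := T) (v := fun _ => 2) (B := 1) (c := lcS (gb J b Λ) x y j)
      (w := fun e => gE (fun F => ∫ σ, F σ ∂μ) (y e.1) (j e.1) (y e.2) (j e.2))
      (fun _ => zero_le_two) zero_le_one (fun e _ _ _ => s1.abs_le fun σ => (abs_mul _ _).trans_le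
        (mul_le_mul (two s1 ..) (two s1 ..) (abs_nonneg _) zero_le_two)) fun A _ =>
          s2.abs_le fun σ => by
            rw [abs_mul, abs_prod, abs_prod]
            simp only [P144F.abs_sp, prod_const_one, one_mul]
            exact prod_le_prod (fun _ _ => abs_nonneg _) fun k _ => two s2 ..
    rw [one_mul, prod_const] at k
    have r1 : (r : ℝ) + 1 ≤ R₀ + 1 := by exact_mod_cast (by omega)
    refine mul_le_mul (mul_le_mul (k.trans (mul_le_mul_of_nonneg_left
      (pow_le_pow_right₀ one_le_two cT) (by positivity))) ((rp _ (by simp)).trans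
        (pow_le_pow_left₀ (by positivity) r1 _)) (by positivity) (by positivity))
      ((prod_le_prod (fun _ _ => Real.sqrt_nonneg _) fun k hk => ?_).trans
        ((prod_const _).trans_le (pow_le_pow_right₀ (by simp) cT)))
      (by positivity) (by positivity)
    have := hS.le k hk
    exact Real.sqrt_le_iff.2 ⟨by positivity, (mul_le_mul (by exact_mod_cast (by omega))
      (by exact_mod_cast (by omega)) (by positivity) (by positivity)).trans_eq (sq _).symm⟩

omit hτ in
/-- The bound on the lattice. -/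
theorem lw_of (hJ : 0 < J) (h1 : Rep J none) (h2 : Rep J (some fun _ => true)) : LW J := by
  intro n m
  obtain ⟨C, h1⟩ := one_b hJ h1 n m
  obtain ⟨C', h2⟩ := one_b hJ h2 n m
  refine ⟨max C C', fun μ hμ b Λ hb x y j T r t u a c => ?_⟩
  rcases hb with rfl | rfl
  exacts [le_max_of_le_left (h1 μ hμ Λ x y j T r t u a c),
    le_max_of_le_right (h2 μ hμ Λ x y j T r t u a c)]

end Vale.Agent.P144DQ
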