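import Vale.Agent.P144DQ.RepF
import Vale.Agent.P144DQ.Lw
import Vale.Agent.P144DE.Plus
import Vale.Agent.P144DI.ContW

/-!
Block W.
-/

namespace Vale.Agent.P144DQ

theorem blkW : P144DR.BlkW :=
  P144DI.blkW_of fun _ hJ => lw_of hJ (rep_free hJ) (P144DE.rep_plus hJ)

end Vale.Agent.P144DQ
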