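import Vale.Agent.P144DC.Ker

/-!
Pfaffians: exchange of two elements, repeated elements, the entries of a block.
-/

namespace Vale.Agent.P144DQ

open Vale.Agent.P144.AL

variable {α : Type*}

theorem sumE_lin (g g' : α → List α → ℝ) (a b : ℝ) (l : List α) :
    sumE (fun y s => a * g y s + b * g' y s) l = a * sumE g l + b * sumE g' l := by
  induction l generalizing g g' with
  | nil => simp [sumE]
  | cons x s ih =>
    rw [sumE, sumE, sumE, ih]
    ring

theorem sumE_two (f g : α → ℝ) (h : List α → ℝ) (s : List α) :
    sumE (fun z t => f z * sumE (fun w t' => g w * h t') t) s +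
      sumE (fun z t => g z * sumE (fun w t' => f w * h t') t) s = 0 := by
  induction s generalizing h with
  | nil => simp [sumE]
  | cons c s ih =>
    have k : ∀ f g : α → ℝ, sumE (fun z t => f z * (g c * h t -
        sumE (fun w t' => g w * h (c :: t')) t)) s = g c * sumE (fun z t => f z * h t) s +
        -1 * sumE (fun z t => f z * sumE (fun w t' => g w * h (c :: t')) t) s := fun f g => by
      rw [← sumE_lin]
      exact congrArg (sumE · s) (funext₂ fun _ _ => by ring)
    simp only [sumE, k]
    linear_combination ih fun t => h (c :: t)

theorem Pf_swap (K : α → α → ℝ) (x y : α) (p s : List α) :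
    Pf K (p ++ x :: y :: s) + Pf K (p ++ y :: x :: s) = (K x y + K y x) * Pf K (p ++ s) := by
  induction hn : p.length + s.length using Nat.strong_induction_on generalizing p s with
  | _ n ih =>
    cases p with
    | nil =>
      simp only [List.nil_append, Pf_cons K x, Pf_cons K y, sumE]
      linear_combination -sumE_two (K x) (K y) (Pf K) s
    | cons c p =>
      have k : ∀ (l : List α) (f g h : List α → ℝ), (∀ j < l.length, f (l.eraseIdx j) +
          g (l.eraseIdx j) = (K x y + K y x) * h (l.eraseIdx j)) →
          sumE (fun z t => K c z * f t) l + sumE (fun z t => K c z * g t) l =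
            (K x y + K y x) * sumE (fun z t => K c z * h t) l := fun l f g h a => by
        have e1 := sumE_lin (fun z t => K c z * f t) (fun z t => K c z * g t) 1 1 l
        have e2 := sumE_lin (fun z t => K c z * h t) (fun z t => K c z * h t) (K x y + K y x) 0 l
        rw [← e1.symm.trans (sumE_congr l fun j hj => by
          linear_combination K c l[j] * a j hj)] at e2
        linear_combination e2
      have h1 := k p (fun t => Pf K (t ++ x :: y :: s)) (fun t => Pf K (t ++ y :: x :: s))
        (fun t => Pf K (t ++ s)) fun j hj => ih _ (by
          rw [← hn, List.length_eraseIdx, if_pos hj, List.length_cons]; omega) (p.eraseIdx j) s rfl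
      have h2 := k s (fun t => Pf K (p ++ x :: y :: t)) (fun t => Pf K (p ++ y :: x :: t))
        (fun t => Pf K (p ++ t)) fun j hj => ih _ (by
          rw [← hn, List.length_eraseIdx, if_pos hj, List.length_cons]; omega) p (s.eraseIdx j) rfl
      simp only [List.cons_append, Pf_cons K c, sumE_append, sumE]
      linear_combination h1 + (-1) ^ p.length * h2

/-- The Wick rule for lists with repeated elements. -/
theorem wick_rep {K : α → α → ℝ} {W : List α → ℝ} {ok : α → Prop}
    (h1 : ∀ p s x y, ok x → ok y → x ≠ y → W (p ++ x :: y :: s) = -W (p ++ y :: x :: s))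
    (h2 : ∀ p s x, W (p ++ x :: x :: s) = K x x * W (p ++ s))
    (h3 : ∀ x y, ok x → ok y → x ≠ y → K x y + K y x = 0)
    (h4 : ∀ l, (∀ c ∈ l, ok c) → l.Nodup → Even l.length → W l = Pf K l) (l : List α)
    (hl : ∀ c ∈ l, ok c) (he : Even l.length) : W l = Pf K l := by
  induction hn : l.length using Nat.strong_induction_on generalizing l with
  | _ n ih =>
    by_cases c : l.Nodup
    · exact h4 l hl c he
    obtain ⟨x, hx⟩ := List.exists_duplicate_iff_not_nodup.2 c
    obtain ⟨p, l', rfl, a, b⟩ := List.cons_sublist_iff.1 (List.duplicate_iff_sublist.1 hx)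
    obtain ⟨p, q, rfl⟩ := List.append_of_mem a
    obtain ⟨q', s, rfl⟩ := List.append_of_mem (List.singleton_sublist.1 b)
    rw [List.append_assoc, List.cons_append, ← List.append_assoc q] at hl he hn ⊢
    generalize q ++ q' = q at hl he hn ⊢
    clear c hx a b
    induction q generalizing p with
    | nil =>
      have e := Pf_swap K x x p s
      rw [List.nil_append] at *
      have e2 : (p ++ s).length + 2 = n := by
        rw [← hn]
        simp only [List.length_append, List.length_cons]
        omega
      rw [h2, ih _ (by omega) (p ++ s) (fun c hc => hl c (by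
        simp only [List.mem_append, List.mem_cons] at hc ⊢; tauto)) (by
          rw [hn, ← e2] at he; exact (Nat.even_add.1 he).2 even_two) rfl]
      linear_combination -e / 2
    | cons y q ih' =>
      have e2 : (p ++ [y] ++ x :: (q ++ x :: s)).length = n := by
        rw [← hn]
        simp only [List.length_append, List.length_cons, List.length_nil]
        omega
      have k := ih' (p ++ [y]) (fun c hc => hl c (by
        simp only [List.mem_append, List.mem_cons, List.not_mem_nil] at hc ⊢; tauto))
        (by rwa [e2, ← hn]) e2
      rw [List.append_assoc, List.singleton_append] at k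
      by_cases e : x = y
      · rwa [← e] at k ⊢
      have ox := hl x (by simp)
      have oy := hl y (by simp)
      rw [List.cons_append, h1 _ _ _ _ ox oy e, k]
      linear_combination -Pf_swap K x y p (q ++ x :: s) - Pf K (p ++ (q ++ x :: s)) * h3 x y ox oy e

open Classical in
/-- The dependence on one entry. -/
theorem Pf_ent {K K' : α → α → ℝ} {e e' : α} (hK : ∀ x y, ¬ (x = e ∧ y = e') → K' x y = K x y)
    (p q s : List α) (hnd : (p ++ e :: (q ++ e' :: s)).Nodup) :
    Pf K' (p ++ e :: (q ++ e' :: s)) = Pf K (p ++ e :: (q ++ e' :: s)) +
      (-1) ^ q.length * (K' e e' - K e e') * Pf K (p ++ (q ++ s)) := by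
  induction q generalizing p K K' with
  | nil =>
    rw [List.nil_append, List.nil_append,
      Pf_aff (t := K e e' - K' e e') hK (by ring) p s hnd]
    simp only [List.length_nil]
    ring
  | cons z q ih =>
    rw [List.cons_append] at hnd ⊢
    have n1 := List.nodup_cons.1 (List.nodup_middle.1 hnd)
    have n2 := List.nodup_cons.1 (List.nodup_middle.1 n1.2)
    have ze : z ≠ e := fun h => n1.1 (by simp [h])
    have ze' : z ≠ e' := fun h => n2.1 (by simp [h])
    have k : ∀ K : α → α → ℝ, Pf K (p ++ e :: z :: (q ++ e' :: s)) =
        -Pf (fun x y => if x = z ∧ y = e then -K e z else K x y)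
          (p ++ [z] ++ e :: (q ++ e' :: s)) := fun K => by
      have := Pf_swap (fun x y => if x = z ∧ y = e then -K e z else K x y) e z p (q ++ e' :: s)
      simp only [ze.symm, false_and, if_false, and_self, if_true, add_neg_cancel, zero_mul] at this
      rw [List.append_assoc, List.singleton_append, ← eq_neg_of_add_eq_zero_left this]
      refine Pf_congr _ fun x y h => (if_neg ?_).symm
      rintro ⟨rfl, rfl⟩
      rcases List.sublist_append_iff.1 h with ⟨l1, l2, a, b, c⟩
      rcases l1 with _ | ⟨u, _ | ⟨v, l1⟩⟩ <;> simp only [List.nil_append, List.cons_append,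
        List.cons.injEq] at a
      · subst a
        exact n1.1 (List.mem_append_right _ (((List.sublist_cons_iff.1 c).resolve_right fun
          ⟨_, d, _⟩ => ze (List.cons.inj d).1).subset (by simp)))
      · exact n2.1 (List.mem_append_left _ (b.subset (by simp [a.1])))
      · exact n2.1 (List.mem_append_left _ (b.subset (by simp [a.1])))
    rw [k K, k K', ih (K := fun x y => if x = z ∧ y = e then -K e z else K x y) (fun x y h => by
      rw [hK e z fun c => ze' c.2, hK x y h]) _ (by
        rw [List.append_assoc, List.singleton_append]
        exact (List.Perm.append_left p (List.Perm.swap _ _ _)).nodup_iff.1 hnd)]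
    simp only [ze.symm, false_and, if_false, List.length_cons, pow_succ, List.append_assoc,
      List.cons_append, List.nil_append]
    rw [Pf_congr (K := fun x y => if x = z ∧ y = e then -K e z else K x y) (K' := K)
      (p ++ z :: (q ++ s)) fun x y h => if_neg fun c => n1.1 (by
        have := h.subset (show y ∈ [x, y] by simp)
        rw [c.2] at this
        simp only [List.mem_append, List.mem_cons] at this ⊢
        tauto)]
    ring

end Vale.Agent.P144DQ
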