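import Vale.Agent.P144DQ.Iso

/-!
The bound for one Pfaffian.
-/

namespace Vale.Agent.P144DQ

open Finset Vale.Agent.P144
open Vale.Agent.P144.AL (Pf cenK flat flat_cons sumE Pf_cons)
open Vale.Agent.P144Z (zd)
open Vale.Agent.P144S.F (lb lb_nodup sub_lb mem_lb)

theorem flat_prod {ι α : Type*} (e e' : ι → α) (g : α → ℝ) (s : List ι) :
    ((flat e e' s).map g).prod = (s.map fun k => g (e k) * g (e' k)).prod := by
  induction s with
  | nil => rfl
  | cons k s ih => simp only [flat_cons, List.map_cons, List.prod_cons, ih, mul_assoc]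

theorem geo {z p q : ℝ} (h1 : |z| ≤ p) (h2 : |z| ≤ q) : |z| ≤ √p * √q :=
  (Real.mul_self_sqrt (abs_nonneg z)).symm.trans_le (mul_le_mul (Real.sqrt_le_sqrt h1)
    (Real.sqrt_le_sqrt h2) (Real.sqrt_nonneg _) (Real.sqrt_nonneg _))

theorem dv {K : ℝ} {e q : ℕ} (hK : 0 ≤ K) (h : q + 1 ≤ 2 * e) : K / e ≤ 2 * K / (q + 1) := by
  have : (q : ℝ) + 1 ≤ 2 * e := by exact_mod_cast h
  rw [div_le_div_iff₀ (by exact_mod_cast (by omega)) (by positivity)]
  nlinarith

/-- The cycle through four legs. -/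
def cy (f : Bool → Bool → ℝ) : ℝ := f false true * f true false - f false false * f true true

theorem cy_le {f g : Bool → Bool → ℝ} {η ε δ : ℝ} (hη : η * η = 1)
    (h1 : ∀ c c', |f c c' - η * g c c'| ≤ ε) (h2 : ∀ c c', |g c c'| ≤ δ) :
    (∀ c c', |f c c'| ≤ δ + ε) ∧ |cy f - cy g| ≤ 2 * (δ + ε) * (2 * ε) := by
  have e : ∀ z, |η * z| = |z| := fun z => by
    rw [abs_mul, (abs_eq_abs (b := 1)).2 (mul_self_eq_one_iff.1 hη), abs_one, one_mul]
  have k : ∀ c c', |f c c'| ≤ δ + ε := fun c c' => by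
    have := abs_add_le (f c c' - η * g c c') (η * g c c')
    rw [sub_add_cancel, e] at this
    linarith [h1 c c', h2 c c']
  have ε0 := (abs_nonneg _).trans (h1 true true)
  have m : ∀ a b c d, |f a b * f c d - g a b * g c d| ≤ 2 * (δ + ε) * ε := fun a b c d => by
    rw [show f a b * f c d - g a b * g c d = f a b * (f c d - η * g c d) +
      η * g c d * (f a b - η * g a b) by linear_combination (g a b * g c d) * hη]
    refine (abs_add_le _ _).trans ?_
    rw [abs_mul, abs_mul, e]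
    nlinarith [mul_le_mul (k a b) (h1 c d) (abs_nonneg _) ((abs_nonneg _).trans (k a b)),
      mul_le_mul (h2 c d) (h1 a b) (abs_nonneg _) ((abs_nonneg _).trans (h2 a b))]
  refine ⟨k, ?_⟩
  have := abs_sub (f false true * f true false - g false true * g true false)
    (f false false * f true true - g false false * g true true)
  rw [cy, cy, sub_sub_sub_comm]
  linarith [m false true true false, m false false true true]

variable {n m : ℕ} {p : List (Fin n)} {s : List (Fin m)} {K : Lab n m → Lab n m → ℝ} {t : Fin m → ℝ}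

theorem flat_lb (s : List (Fin m)) : flat (lo (n := n)) hi s = (lb s).map .inr :=
  (AL.flat_map Sum.inr (fun k => (k, false)) (fun k => (k, true)) s).symm

theorem lab_nodup (hp : p.Nodup) (hs : s.Nodup) :
    (p.map Sum.inl ++ flat (lo (n := n)) hi s).Nodup := by
  rw [flat_lb]
  exact List.nodup_append.2 ⟨hp.map Sum.inl_injective, (lb_nodup hs).map Sum.inr_injective, by simp⟩

theorem sub_lab (hp : p.Nodup) (hs : s.Nodup) {x y : Lab n m}
    (h : [x, y].Sublist (p.map .inl ++ flat lo hi s)) :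
    (∃ i ∈ p, ∃ i' ∈ p, i ≠ i' ∧ x = .inl i ∧ y = .inl i') ∨
    (∃ i ∈ p, ∃ k ∈ s, ∃ c, x = .inl i ∧ y = .inr (k, c)) ∨ (∃ k ∈ s, x = lo k ∧ y = hi k) ∨
    ∃ k ∈ s, ∃ l ∈ s, k ≠ l ∧ ∃ c c', x = .inr (k, c) ∧ y = .inr (l, c') := by
  have nd := lab_nodup hp hs
  have n := List.nodup_cons.1 (nd.sublist h)
  have hx := h.subset (show x ∈ [x, y] by simp)
  have hy := h.subset (show y ∈ [x, y] by simp)
  rw [flat_lb] at h hx hy nd
  rcases x with i | ⟨k, c⟩ <;> rcases y with i' | ⟨l, c'⟩ <;>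
    simp only [List.mem_append, List.mem_map, Sum.inl.injEq, Sum.inr.injEq, exists_eq_right,
      reduceCtorEq, and_false, exists_false, or_false, false_or] at hx hy
  · exact Or.inl ⟨i, hx, i', hy, by simpa using n.1, rfl, rfl⟩
  · exact Or.inr (Or.inl ⟨i, hx, l, mem_lb hy, c', rfl, rfl⟩)
  · exact (two_sub nd h
      ((List.singleton_sublist.2 (List.mem_map_of_mem hy)).append
        (List.singleton_sublist.2 (List.mem_map_of_mem hx)))).elim
  · have := (h.filterMap Sum.getRight?)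
    simp only [List.filterMap_append, List.filterMap_map, Function.comp_def, Sum.getRight?_inl,
      Sum.getRight?_inr, List.filterMap_cons, List.filterMap_nil, List.filterMap_some,
      List.filterMap_none, List.nil_append] at this
    rcases sub_lb hs this with a | ⟨a1, a2, a3⟩
    · exact Or.inr (Or.inr (Or.inr ⟨k, mem_lb hx, l, mem_lb hy, a, c, c', rfl, rfl⟩))
    · simp only at a1 a2 a3
      subst a1 a2 a3
      exact Or.inr (Or.inr (Or.inl ⟨k, mem_lb hx, rfl, rfl⟩))

theorem cen_diag (hs : s.Nodup) {k : Fin m} (hk : k ∈ s) :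
    cenK K lo hi t s (lo k) (hi k) = K (lo k) (hi k) - t k := by
  rw [cenK, ← List.sum_toFinset _ hs, sum_eq_single_of_mem k (List.mem_toFinset.2 hk)
    fun l _ a => by simp [lo, a.symm], if_pos ⟨rfl, rfl⟩]

theorem cen_off {x y : Lab n m} (h : ∀ k, ¬ (x = lo k ∧ y = hi k)) : cenK K lo hi t s x y = K x y := by
  rw [cenK, List.sum_eq_zero fun z hz => ?_, sub_zero]
  obtain ⟨k, -, rfl⟩ := List.mem_map.1 hz
  exact if_neg (h k)

theorem cen_all (hs : s.Nodup) : Pf (cenK K lo hi t s) (p.map .inl ++ flat lo hi s) =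
    Pf (cenK K lo hi t (List.finRange m)) (p.map .inl ++ flat lo hi s) :=
  AL.Pf_congr _ fun x y h => by
    by_cases c : ∃ k, x = lo k ∧ y = hi k
    · obtain ⟨k, rfl, rfl⟩ := c
      have := h.subset (show lo k ∈ [lo k, hi k] by simp)
      rw [flat_lb] at this
      rw [cen_diag hs (mem_lb (x := (k, false)) (by simpa [lo] using this)),
        cen_diag (List.nodup_finRange m) (List.mem_finRange k)]
    · rw [cen_off (not_exists.1 c), cen_off (not_exists.1 c)]

/-- The weight of an energy. -/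
noncomputable def wt (γ : ℝ) (t : ℕ) : ℝ := √(γ / (t + 1))

theorem wt_nn (γ : ℝ) (t : ℕ) : 0 ≤ wt γ t := Real.sqrt_nonneg _

theorem wt_le {γ : ℝ} (h : 0 ≤ γ) {t u : ℕ} (a : t ≤ u) : wt γ u ≤ wt γ t :=
  Real.sqrt_le_sqrt (div_le_div_of_nonneg_left h (by positivity) (by exact_mod_cast (by omega)))

section

variable {C C₀ C' γ : ℝ} {r : ℕ} {τ : Site × Fin 2 × Bool → Site × Fin 2 × Bool → ℝ}
  {y : Fin m → Site} {j : Fin m → Fin 2} {T : Finset (Fin m)} {a u : Fin m → ℕ}
  (hτ : ∀ c c', |τ c c'| ≤ C₀ / (zd c.1 c'.1 + 1)) (hC : 0 ≤ C) (hC₀ : 0 ≤ C₀)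
  (hγ : 4 * (C₀ + C + C') + 1 ≤ γ) (hC' : 0 ≤ C') (hr : 1 ≤ r) (hS : Scal y T r a u)

include hC hC₀ hγ hC' hr hS

theorem sz {k l : Fin m} (hk : k ∈ T) {q : ℕ} (h1 : q ≤ u k) (h2 : q ≤ 2 * zd (y k) (y l)) :
    C₀ / (zd (y k) (y l) + 1) + C / r ≤ γ / 2 / (q + 1) := by
  have a1 := dv (e := zd (y k) (y l) + 1) (q := q) hC₀ (by omega)
  have a2 := dv (e := r) (q := q) hC (by have := hS.le k hk; omega)
  push_cast at a1
  refine (add_le_add a1 a2).trans ?_
  rw [← add_div]
  exact div_le_div_of_nonneg_right (by linarith) (by positivity)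

theorem sz2 {k l : Fin m} (hk : k ∈ T) (hl : l ∈ T) {q q' : ℕ} (h1 : q ≤ u k)
    (h2 : q ≤ 2 * zd (y k) (y l)) (h3 : q' ≤ u l) (h4 : q' ≤ 2 * zd (y l) (y k)) :
    2 * (C₀ / (zd (y k) (y l) + 1) + C / r) ≤ wt γ q * wt γ q' := by
  have a1 := sz hC hC₀ hγ hC' hr hS hk h1 h2
  have a2 := sz hC hC₀ hγ hC' hr hS hl h3 h4
  rw [P144DC.zd_symm (y l)] at a2
  rw [div_right_comm] at a1 a2
  refine (le_abs_self _).trans (geo ?_ ?_) <;> rw [abs_of_nonneg (by positivity)] <;> linarith

include hτ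

theorem sec_le (hK : KB C r τ y j T p K) (hp : p.Nodup)
    (ht : ∀ k ∈ T, |t k - τ (y k, j k, false) (y k, j k, true)| ≤ C' / r) {A : Finset (Fin m)}
    (hA : A ⊆ T) (hs : (s ++ flat Prod.fst Prod.snd (isL y T A)).Nodup) (hsA : ∀ k ∈ s, k ∈ A) :
    |EL (fun e => cy fun c c' => τ (y e.1, j e.1, c) (y e.2, j e.2, c'))
      (fun l => Pf (cenK K lo hi t (List.finRange m)) (p.map .inl ++ flat lo hi s ++ flat lo hi l))
      (isL y T A)| ≤ 6 ^ m * ((n + 2 * m).factorial * (γ ^ n *
        ((s ++ flat Prod.fst Prod.snd (isL y T A)).map fun k =>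
          wt γ (min (a k) (u k)) * wt γ (u k)).prod)) := by
  have γ1 : 1 ≤ γ := by linarith
  have γ0 : 0 ≤ γ := by linarith
  have r0 : (0 : ℝ) < r := by exact_mod_cast hr
  have sT : ∀ k ∈ s ++ flat Prod.fst Prod.snd (isL y T A), k ∈ A := fun k hk => by
    rcases List.mem_append.1 hk with c | c
    · exact hsA k c
    · obtain ⟨q, h1, h2⟩ := List.mem_flatMap.1 c
      simp only [List.mem_cons, List.not_mem_nil, or_false] at h2
      rcases h2 with rfl | rfl
      exacts [(mem_isL.1 h1).1.1, (mem_isL.1 h1).1.2]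
  have nd := lab_nodup (n := n) hp hs
  have off : ∀ k l c c', k ≠ l → cenK K lo hi t (List.finRange m) (.inr (k, c)) (.inr (l, c')) =
      K (.inr (k, c)) (.inr (l, c')) := fun k l c c' h => cen_off fun i e => h (by
    simp only [lo, hi, Sum.inr.injEq, Prod.mk.injEq] at e
    exact e.1.1.trans e.2.1.symm)
  have sm : ∀ {D : ℝ}, 0 ≤ D → 2 * D ≤ γ → ∀ k ∈ T, D / r ≤ γ / (u k + 1) := fun h h' k hk =>
    (dv h (by have := hS.le k hk; omega)).trans (div_le_div_of_nonneg_right h' (by positivity))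
  refine (EL_le (w := Sum.elim (fun _ => γ) fun x => wt γ (u x.1))
    (a := fun k => wt γ (min (a k) (u k))) (b := fun k => wt γ (u k)) nd
    (by rintro (_ | _); exacts [γ0, wt_nn _ _]) (fun _ => ⟨rfl, rfl⟩)
    (fun k => wt_le γ0 (min_le_right _ _)) _ _ _ (by rw [AL.flat_append, List.append_assoc])
    (fun x x' h h' => ?_) fun q hq => ?_).trans ?_
  · rcases sub_lab hp hs h with ⟨i, c, i', d, e, rfl, rfl⟩ | ⟨i, c, k, d, e, rfl, rfl⟩ |
      ⟨k, c, rfl, rfl⟩ | ⟨k, c, l, d, e, f, f', rfl, rfl⟩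
    · rw [cen_off (by simp [lo])]
      exact (hK.ss i c i' d e).trans (by simp only [Sum.elim_inl]; nlinarith)
    · rw [cen_off (by simp [lo])]
      exact (Real.abs_le_sqrt ((hK.se i c k (hA (sT k d)) e).trans (sm hC (by linarith) k
        (hA (sT k d))))).trans (le_mul_of_one_le_left (wt_nn _ _) γ1)
    · obtain ⟨η, -, e, g⟩ := hK.ee k (hA (sT k c)) k (hA (sT k c))
      have g := g false true
      rw [e rfl, one_mul] at g
      have := sm (D := C + C') (by linarith) (by linarith) k (hA (sT k c))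
      rw [cen_diag (List.nodup_finRange m) (List.mem_finRange k)]
      refine geo (le_trans ?_ this) (le_trans ?_ this) <;>
      · refine (abs_sub_le _ (τ (y k, j k, false) (y k, j k, true)) _).trans ?_
        rw [add_div, abs_sub_comm _ (t k)]
        exact add_le_add g (ht k (hA (sT k c)))
    · have k1 := hA (sT k c)
      have l1 := hA (sT l d)
      have ni : ¬ Iso y T k l := fun g => by
        rcases lt_or_gt_of_ne e with o | o
        · exact h' (k, l) (mem_isL.2 ⟨⟨sT k c, sT l d⟩, o, g⟩) (by cases f <;> simp [lo, hi])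
            (by cases f' <;> simp [lo, hi])
        · refine two_sub nd h (List.Sublist.trans ?_ (((flat_sub lo hi ((flat_sub Prod.fst Prod.snd
            (List.singleton_sublist.2 (mem_isL.2 (show _ ∧ (l, k).1 < _ ∧ _ from
              ⟨⟨sT l d, sT k c⟩, o, g.symm⟩)))).trans (List.sublist_append_right _ _)))).trans
              (List.sublist_append_right _ _)))
          cases f <;> cases f' <;> simp [flat, lo, hi]
      obtain ⟨η, e1, -, g⟩ := hK.ee k k1 l l1
      have b1 := (cy_le (δ := C₀ / (zd (y k) (y l) + 1)) e1 g fun c c' => hτ _ _).1 f f'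
      have b2 := sz2 hC hC₀ hγ hC' hr hS k1 l1 le_rfl (hS.iso k1 l1 e ni) le_rfl
        (hS.iso l1 k1 e.symm fun g => ni g.symm)
      rw [off _ _ _ _ e]
      exact b1.trans (le_trans (by linarith [(abs_nonneg _).trans b1]) b2)
  · obtain ⟨⟨k1, l1⟩, o, -⟩ := mem_isL.1 hq
    obtain ⟨η, e1, -, g⟩ := hK.ee _ (hA k1) _ (hA l1)
    obtain ⟨b1, b2⟩ := cy_le (δ := C₀ / (zd (y q.1) (y q.2) + 1)) e1 g fun c c' => hτ _ _
    have b3 := sz2 hC hC₀ hγ hC' hr hS (hA k1) (hA l1) (min_le_right (a q.1) _)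
      (by have := hS.ht _ (hA k1) _ (hA l1) o.ne; omega) (min_le_right (a q.2) _)
      (by have := hS.ht _ (hA l1) _ (hA k1) o.ne'; omega)
    have b4 : |2 * C / r| ≤ wt γ (u q.1) * wt γ (u q.2) := by
      refine geo ?_ ?_ <;> rw [abs_of_nonneg (by positivity)]
      exacts [sm (by linarith) (by linarith) _ (hA k1), sm (by linarith) (by linarith) _ (hA l1)]
    rw [abs_of_nonneg (by positivity), mul_div_assoc] at b4
    simp only [lo, hi, off _ _ _ _ o.ne, List.forall_mem_cons, List.not_mem_nil, false_imp_iff,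
      implies_true, and_true]
    have b5 := fun c c' => (b1 c c').trans ((le_mul_of_one_le_left
      ((abs_nonneg _).trans (b1 c c')) one_le_two).trans b3)
    exact ⟨⟨⟨b5 _ _, b5 _ _⟩, b5 _ _, b5 _ _⟩, b2.trans ((mul_le_mul b3 b4 (by positivity)
      (mul_nonneg (wt_nn _ _) (wt_nn _ _))).trans_eq (mul_mul_mul_comm ..))⟩
  · have l1 := hs.length_le_card
    have l2 := hp.length_le_card
    rw [List.length_append, AL.flat_length, Fintype.card_fin] at l1
    rw [Fintype.card_fin] at l2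
    have nn : ∀ {ι : Type} (l : List ι) (g : ι → ℝ), (∀ k, 0 ≤ g k) → 0 ≤ (l.map g).prod :=
      fun l g h => List.prod_nonneg fun z hz => by
        obtain ⟨x, -, rfl⟩ := List.mem_map.1 hz
        exact h x
    have w2 : ∀ q q', 0 ≤ wt γ q * wt γ q' := fun _ _ => mul_nonneg (wt_nn _ _) (wt_nn _ _)
    rw [List.map_append, List.map_append, List.prod_append, List.prod_append, flat_prod, flat_prod,
      List.map_map, mul_assoc _ (List.prod _)]
    have n1 := nn (isL y T A) _ fun q => mul_nonneg (w2 (min (a q.1) (u q.1)) (u q.1))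
      (w2 (min (a q.2) (u q.2)) (u q.2))
    have n2 := nn s _ fun k => w2 (u k) (u k)
    have n3 := nn p (fun _ => γ) fun _ => γ0
    refine mul_le_mul (pow_le_pow_right₀ (by norm_num) (by omega)) (mul_le_mul ?_ (mul_le_mul ?_
      (mul_le_mul_of_nonneg_right ?_ n1) (mul_nonneg n2 n1) (by positivity))
      (mul_nonneg n3 (mul_nonneg n2 n1)) (by positivity))
      (mul_nonneg (by positivity) (mul_nonneg n3 (mul_nonneg n2 n1))) (by positivity)
    · refine Nat.cast_le.2 (Nat.factorial_le ?_)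
      simp only [List.length_append, List.length_map, AL.flat_length]
      omega
    · simpa [Function.comp_def] using pow_le_pow_right₀ γ1 l2
    · exact List.prod_map_le_prod_map₀ _ _ (fun k _ => w2 _ _) fun k _ =>
        mul_le_mul_of_nonneg_right (wt_le γ0 (min_le_right _ _)) (wt_nn _ _)

end

end Vale.Agent.P144DQ
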