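import Vale.Agent.P144DQ.Free
import Vale.Agent.P144DQ.Sec
import Vale.Agent.P144DE.Tw

/-!
The mixed correlations of the free model as Pfaffians.
-/

namespace Vale.Agent.P144DQ

open Finset Vale.Agent.P144 Vale.Agent.P144P Vale.Agent.P144DC
open Vale.Agent.P144.H170 (bx mem_bx)
open Vale.Agent.P144.AL (Cn cnr mem_cnr ep el Wf eLo eHi srcs fcs sps Pf flat flat_cons cenK ep_sq)
open Vale.Agent.P144DE (sg tw sg_le sg_ne sg_abs)
open Vale.Agent.P144Z (zd)

/-- The marked corner of a leg. -/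
def mc (a : Site × Fin 2 × Bool) : Cn × Bool :=
  (if a.2.2 then eHi a.1 a.2.1 else eLo a.1, decide (a.2.1 = 0))

/-- The sign of two marked corners. -/
noncomputable def se (c c' : Cn × Bool) : ℝ := sg c c' * ep c.1 c'.1

theorem se_four (v w : Site) (i j : Fin 2) :
    se (mc (v, i, false)) (mc (w, j, false)) * se (mc (v, i, true)) (mc (w, j, false)) *
      (se (mc (v, i, false)) (mc (w, j, true)) * se (mc (v, i, true)) (mc (w, j, true))) = 1 := by
  by_cases h : v = w
  · subst h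
    fin_cases i <;> fin_cases j <;> simp [se, mc, P144DE.sg, ep, eLo, eHi, dir, Prod.ext_iff]
  · have k : ∀ c c', sg (mc (v, i, c)) (mc (w, j, c')) = 1 := fun c c' => sg_ne fun e => h (by
      cases c <;> cases c' <;> exact congrArg Prod.snd e)
    simp only [se, k, one_mul]
    exact AL.ep_four v w i j h

theorem tw_sq {γ : Type*} (l : List (γ × Bool)) : tw l * tw l = 1 := by
  induction l with
  | nil => simp [tw]
  | cons c l ih =>
    rw [tw]
    linear_combination (tw l * tw l) * AL.map_sq l (sg c) (P144DE.sg_sq c) + ih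

/-- The sign of an energy relative to the sources. -/
noncomputable def pi (P : List Cn) (v : Site) (j : Fin 2) : ℝ :=
  (P.map fun z => ep z (eLo v) * ep z (eHi v j)).prod

variable {n m : ℕ} (y : Fin m → Site) (j : Fin m → Fin 2)

theorem tw_el (P : List Cn) (s : List (Fin m)) :
    tw (P.map (·, false) ++ flat (fun k => mc (y k, j k, false)) (fun k => mc (y k, j k, true)) s) *
      el (P ++ flat (fun k => eLo (y k)) (fun k => eHi (y k) (j k)) s) =
      el P * (s.map fun k => ep (eLo (y k)) (eHi (y k) (j k)) * pi P (y k) (j k)).prod := by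
  induction P with
  | nil =>
    simp only [List.map_nil, List.nil_append, el, pi, List.prod_nil, mul_one, one_mul]
    induction s with
    | nil => simp [flat, tw, el]
    | cons k s ih =>
      have e := AL.list_prod_one s _ fun l _ => se_four (y k) (y l) (j k) (j l)
      have e2 : sg (mc (y k, j k, false)) (mc (y k, j k, true)) = 1 := sg_le (by simp [mc, em'])
      simp only [flat_cons, tw, el, List.map_cons, List.prod_cons, flat_prod, ← ih, e2,
        se, List.prod_map_mul] at e ⊢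
      simp only [mc, Bool.false_eq_true, if_true, if_false] at e ⊢
      linear_combination (ep (eLo (y k)) (eHi (y k) (j k)) * (tw (flat
        (fun k => (eLo (y k), decide (j k = 0))) (fun k => (eHi (y k) (j k), decide (j k = 0))) s) *
          el (flat (fun k => eLo (y k)) (fun k => eHi (y k) (j k)) s))) * e
  | cons c P ih =>
    simp only [List.map_cons, List.cons_append, tw, el, pi, List.prod_cons, List.map_append,
      List.prod_append, flat_prod, List.prod_map_mul,
      AL.list_prod_one _ _ fun z _ => sg_le (x := (c, false)) (y := z) (Or.inl rfl)] at ih ⊢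
    linear_combination ((P.map (ep c)).prod * ((s.map fun k => ep c (eLo (y k))).prod *
      (s.map fun k => ep c (eHi (y k) (j k))).prod)) * ih

variable (x : Fin n → Site)

/-- The marked corners of the labels. -/
def ml : Lab n m → Cn × Bool :=
  Sum.elim (fun i => ((x i, x i), false)) fun a => mc (y a.1, j a.1, a.2)

/-- The signs of the legs. -/
noncomputable def sl (a : Site × Fin 2 × Bool) : ℝ := if a.2.2 then ep (eLo a.1) (eHi a.1 a.2.1) else 1

/-- The signs of the labels. -/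
noncomputable def wf : Lab n m → ℝ := Sum.elim (fun _ => 1) fun a =>
  sl (y a.1, j a.1, a.2) * if a.2 then pi (srcs x) (y a.1) (j a.1) else 1

/-- The kernel. -/
noncomputable def KF (Λ : Finset Site) (a b : Lab n m) : ℝ :=
  wf y j x a * wf y j x b * (sg (ml y j x a) (ml y j x b) *
    Wf Λ (fcs (srcs x)) [(ml y j x a).1, (ml y j x b).1])

theorem ml_cnr (a : Lab n m) : (ml y j x a).1.1 ∈ cnr (ml y j x a).1.2 := by
  rcases a with i | ⟨k, _ | _⟩
  exacts [AL.eLo_cnr _, AL.eLo_cnr _, AL.eHi_cnr _ _]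

variable {y j x} {J : ℝ} {Λ : Finset Site}

theorem base (hJ : 0 < J) (hx : ∀ i, x i ∈ Λ) {s : List (Fin m)}
    (hs : ∀ k ∈ s, y k ∈ Λ ∧ y k + dir (j k) ∈ Λ) :
    gb J none Λ (fun σ => (∏ i, sp (σ (x i))) * (s.map fun k => en (y k) (j k) σ).prod) =
      H436.MM Λ (fcs (srcs x)) * el (srcs x) *
        Pf (KF y j x Λ) ((List.finRange n).map .inl ++ flat lo hi s) := by
  set L : List (Lab n m) := (List.finRange n).map .inl ++ flat lo hi s with hL
  set l := srcs x ++ flat (fun k => eLo (y k)) (fun k => eHi (y k) (j k)) s with hl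
  have e1 : L.map (ml y j x) = (srcs x).map (·, false) ++
      flat (fun k => mc (y k, j k, false)) (fun k => mc (y k, j k, true)) s := by
    simp only [hL, List.map_append, List.map_map, AL.flat_map, srcs]
    rfl
  have e2 : (L.map (ml y j x)).map Prod.fst = l := by
    simp only [e1, hl, List.map_append, List.map_map, AL.flat_map, srcs]
    rfl
  have hc : ∀ c ∈ l, c.1 ∈ cnr c.2 ∧ c.1 ∈ Λ := fun c hc => by
    rcases List.mem_append.1 hc with a | a
    · obtain ⟨i, -, rfl⟩ := List.mem_map.1 a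
      exact ⟨AL.eLo_cnr _, hx i⟩
    · obtain ⟨k, b, a⟩ := List.mem_flatMap.1 a
      simp only [List.mem_cons, List.not_mem_nil, or_false] at a
      rcases a with rfl | rfl
      exacts [⟨AL.eLo_cnr _, (hs k b).1⟩, ⟨AL.eHi_cnr _ _, (hs k b).2⟩]
  have hd : ∀ v ∈ sps l, v ∈ Λ := fun v hv => by
    obtain ⟨c, a, rfl⟩ := List.mem_map.1 (Multiset.mem_coe.1 hv)
    exact (hc c a).2
  have e3 : gb J none Λ (fun σ => (∏ i, sp (σ (x i))) * (s.map fun k => en (y k) (j k) σ).prod) =
      AL.QQ Λ 0 (sps l) / AL.QQ Λ 0 0 := by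
    rw [← AL.gibbs_spn hJ hd]
    refine congrArg _ (funext fun σ => ?_)
    simp only [sps, Multiset.map_coe, Multiset.prod_coe, hl, List.map_append, List.prod_append,
      List.map_map, flat_prod, srcs, prod_fin]
    rfl
  have len : L.length = l.length := by rw [← e2, List.length_map, List.length_map]
  rw [e3]
  by_cases he : Even l.length
  swap
  · rw [AL.Pf_odd _ _ (len ▸ he), mul_zero, AL.QQ_odd 0 hd (by
      rw [sps, Multiset.coe_card, List.length_map]
      exact Nat.not_even_iff_odd.1 he), zero_div]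
  have e4 := P144DE.Pf_tw (K := fun c c' => Wf Λ (fcs (srcs x)) [c, c'])
    (ok := fun c => c.1 ∈ cnr c.2) (fun c c' a b d => by
      rw [Wf_two, Wf_two, Multiset.cons_swap c.2, ← Multiset.cons_zero, ← Multiset.cons_zero c.1,
        Multiset.cons_swap c.1, ← add_mul, show ep c c' + ep c' c = 0 by
          linear_combination ep c' c * AL.ep_anti a b d - ep c c' * ep_sq c' c, zero_mul])
    (L.map (ml y j x)) fun c a => by
      obtain ⟨z, -, rfl⟩ := List.mem_map.1 a
      exact ml_cnr _ _ _ z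
  rw [AL.Pf_map, e2, ← wf_free _ l hc he, e1] at e4
  have e5 := AL.Pf_scale (fun a b => sg (ml y j x a) (ml y j x b) *
    Wf Λ (fcs (srcs x)) [(ml y j x a).1, (ml y j x b).1]) (wf y j x) L (len ▸ he)
  have e6 : (L.map (wf y j x)).prod = (s.map fun k => ep (eLo (y k)) (eHi (y k) (j k)) *
      pi (srcs x) (y k) (j k)).prod := by
    simp [hL, flat_prod, wf, sl, lo, hi, Function.comp_def]
  have e7 := tw_el y j (srcs x) s
  have e8 := P144T.E.Wf_list (Λ := Λ) (N := 0) (l := l) (srcs x) y j s (by simp [hl])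
  have e9 := AL.el_sq l
  have e10 := AL.el_sq (srcs x)
  have e11 : ∀ a b c d : ℝ, c * c = 1 → d * d = 1 → a * c = d * b → (a * a = 1 → c = d * (b * a)) :=
    fun a b c d _ _ h3 h4 => by linear_combination a * h3 - c * h4
  rw [e8, show Pf (KF y j x Λ) L = _ from e5, e6, e4, AL.SG, List.map_nil, List.prod_nil, one_mul,
    e11 _ _ _ _ e9 e10 e7 (tw_sq _)]
  ring

theorem mix (hJ : 0 < J) (hx : ∀ i, x i ∈ Λ) {s : List (Fin m)} (hn : s.Nodup)
    (hs : ∀ k ∈ s, y k ∈ Λ ∧ y k + dir (j k) ∈ Λ) (t : Fin m → ℝ) :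
    gb J none Λ (fun σ => (∏ i, sp (σ (x i))) * (s.map fun k => en (y k) (j k) σ - t k).prod) =
      H436.MM Λ (fcs (srcs x)) * el (srcs x) *
        Pf (cenK (KF y j x Λ) lo hi t s) ((List.finRange n).map .inl ++ flat lo hi s) := by
  have h0 : H436.MM Λ (fcs (srcs x)) * el (srcs x) ≠ 0 :=
    mul_ne_zero (div_pos (AL.QQ_pos _ _) (AL.QQ_pos _ _)).ne' (left_ne_zero_of_mul_eq_one (AL.el_sq _))
  have h := AL.cen_pf (L := fun F => gb J none Λ F / (H436.MM Λ (fcs (srcs x)) * el (srcs x)))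
    (fun f g c => by
      simp only [gb, AL.gibbs_lin hJ]
      ring) (fun k => en (y k) (j k)) t (fun σ => ∏ i, sp (σ (x i))) lo hi (KF y j x Λ)
    ((List.finRange n).map .inl) [] s
    (by simpa only [List.append_nil] using lab_nodup (List.nodup_finRange n) hn) fun s' a => by
      simp only [base hJ hx fun k hk => hs k (a.subset hk), List.append_nil]
      exact mul_div_cancel_left₀ _ h0
  rw [div_eq_iff h0, List.append_nil] at h
  rw [h, mul_comm]

theorem ep_gg {u v p : Site} (i : Fin 2) (h : zd v p < zd u v) :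
    ep (u, u) (eLo v) * ep (u, u) (eHi v i) = (if u.2 ≤ p.2 ∧ v.1 ≤ u.1 then (-1 : ℝ) else 1) *
      if u.2 ≤ p.2 ∧ (v + dir i).1 ≤ u.1 then -1 else 1 := by
  obtain ⟨a, b⟩ := v
  obtain ⟨c, d⟩ := u
  unfold zd at h
  unfold ep eLo eHi dir
  by_cases hi : i = 0 <;> simp only [hi, if_true, if_false, Prod.mk_add_mk, add_zero] at h ⊢ <;>
    split_ifs <;> first | (exfalso; omega) | norm_num

theorem pi_gg {v p : Site} (i : Fin 2) (h : ∀ a, zd v p < zd (x a) v) :
    pi (srcs x) v i = gg (fun f => f.2 ≤ p.2) (fcs (srcs x)) v.1 *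
      gg (fun f => f.2 ≤ p.2) (fcs (srcs x)) (v + dir i).1 := by
  simp only [pi, gg, fcs, srcs, Multiset.map_coe, Multiset.prod_coe, List.map_map,
    ← List.prod_map_mul]
  refine congrArg _ (List.map_congr_left fun a _ => (ep_gg i (h a)).trans ?_)
  simp only [Function.comp]
  by_cases h1 : (x a).2 ≤ p.2 ∧ v.1 ≤ (x a).1 <;>
    by_cases h2 : (x a).2 ≤ p.2 ∧ (v + dir i).1 ≤ (x a).1 <;>
      simp only [h1, h2, if_true, if_false, and_self]

theorem pi_sq (P : List Cn) (v : Site) (i : Fin 2) : pi P v i * pi P v i = 1 :=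
  AL.map_sq _ _ fun z => by rw [mul_mul_mul_comm, ep_sq, ep_sq, one_mul]

theorem abs_pm {a : ℝ} (h : a * a = 1) : |a| = 1 := by
  rw [(abs_eq_abs (b := 1)).2 (mul_self_eq_one_iff.1 h), abs_one]

theorem sl_abs (a : Site × Fin 2 × Bool) : |sl a| = 1 := by
  unfold sl
  split_ifs
  exacts [abs_pm (ep_sq _ _), abs_one]

theorem mc_cnr (a : Site × Fin 2 × Bool) : (mc a).1.1 ∈ cnr (mc a).1.2 ∧ (mc a).1.2 = a.1 := by
  obtain ⟨v, i, _ | _⟩ := a
  exacts [⟨AL.eLo_cnr _, rfl⟩, ⟨AL.eHi_cnr _ _, rfl⟩]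

theorem wf_abs (a : Lab n m) : |wf y j x a| = 1 := by
  rcases a with i | ⟨k, _ | _⟩
  · exact abs_one
  · simp [wf, sl]
  · simp [wf, sl_abs, abs_pm (pi_sq ..)]

theorem KF_abs (a b : Lab n m) :
    |KF y j x Λ a b| = |Wf Λ (fcs (srcs x)) [(ml y j x a).1, (ml y j x b).1]| := by
  simp only [KF, abs_mul, wf_abs, sg_abs, one_mul]

theorem mem_src {f : Site} : f ∈ fcs (srcs x) ↔ ∃ i, x i = f := by simp [fcs, srcs]

/-- The entries between the legs of energies. -/
theorem ee_free {C : ℝ} {τ : Cn → Cn → ℝ} {d : ℕ} {k l : Fin m} (hC : 0 ≤ C) (hd : 0 < d)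
    (hτ : ∀ c y : Cn, y.1 ∈ cnr y.2 → |τ c y| ≤ C / (zd c.2 y.2 + 1))
    (hk : ∀ a, d < zd (x a) (y k)) (hl : ∀ a, d < zd (x a) (y l))
    (h : ∀ c c', |(if 400 * zd (y k) (y l) ≤ d then
      gg (fun f => f.2 ≤ (y l).2) (fcs (srcs x)) (mc (y l, j l, c')).1.1.1 *
        gg (fun f => f.2 ≤ (y l).2) (fcs (srcs x)) (mc (y k, j k, c)).1.1.1 else 1) *
      Wf Λ (fcs (srcs x)) [(mc (y k, j k, c)).1, (mc (y l, j l, c')).1] -
      τ (mc (y k, j k, c)).1 (mc (y l, j l, c')).1| ≤ C / d) :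
    ∃ η : ℝ, η * η = 1 ∧ (k = l → η = 1) ∧ ∀ c c', |KF y j x Λ (.inr (k, c)) (.inr (l, c')) - η *
      (sl (y k, j k, c) * sl (y l, j l, c') * (sg (mc (y k, j k, c)) (mc (y l, j l, c')) *
        τ (mc (y k, j k, c)).1 (mc (y l, j l, c')).1))| ≤ 801 * C / d := by
  have e : ∀ η c c', |KF y j x Λ (.inr (k, c)) (.inr (l, c')) - η *
      (sl (y k, j k, c) * sl (y l, j l, c') * (sg (mc (y k, j k, c)) (mc (y l, j l, c')) *
        τ (mc (y k, j k, c)).1 (mc (y l, j l, c')).1))| =
      |(if c then pi (srcs x) (y k) (j k) else 1) * (if c' then pi (srcs x) (y l) (j l) else 1) *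
        Wf Λ (fcs (srcs x)) [(mc (y k, j k, c)).1, (mc (y l, j l, c')).1] -
        η * τ (mc (y k, j k, c)).1 (mc (y l, j l, c')).1| := fun η c c' => by
    have q0 : ∀ a b c z : ℝ, |a| = 1 → |b| = 1 → |c| = 1 → |a * b * c * z| = |z| :=
      fun a b c z h1 h2 h3 => by simp only [abs_mul, h1, h2, h3, one_mul]
    refine Eq.trans (congrArg _ ?_) (q0 _ _ _ _ (sl_abs (y k, j k, c)) (sl_abs (y l, j l, c'))
      (sg_abs (mc (y k, j k, c)) (mc (y l, j l, c'))))
    simp only [KF, wf, ml, Sum.elim_inr]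
    ring
  simp only [e]
  have d0 : (0 : ℝ) < d := by exact_mod_cast hd
  have c0 : 0 ≤ C / d := by positivity
  set g := gg (fun f => f.2 ≤ (y l).2) (fcs (srcs x)) with hg
  have g2 : ∀ i, g i * g i = 1 := fun i => gg_sq _ _ _
  split_ifs at h with a
  · have p : ∀ k c, (∀ a, zd (y k) (y l) < zd (x a) (y k)) → (if c then pi (srcs x) (y k) (j k)
        else 1) = g (y k).1 * g (mc (y k, j k, c)).1.1.1 := by
      rintro k (_ | _) b
      exacts [(g2 _).symm, pi_gg _ b]
    refine ⟨g (y k).1 * g (y l).1, by rw [mul_mul_mul_comm, g2, g2, one_mul],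
      fun e => by rw [e, g2], fun c c' => ?_⟩
    rw [p k c fun a => by have := hk a; omega, p l c' fun a => by
      have := hl a; rw [zd_self]; omega, mul_mul_mul_comm, mul_assoc, ← mul_sub, abs_mul, abs_mul,
      abs_pm (g2 _), abs_pm (g2 _), one_mul, one_mul, mul_comm (g _), mul_div_assoc]
    linarith [h c c']
  · refine ⟨1, one_mul 1, fun _ => rfl, fun c c' => ?_⟩
    have b1 := h c c'
    have b2 := hτ (mc (y k, j k, c)).1 _ (mc_cnr (y l, j l, c')).1
    rw [(mc_cnr _).2, (mc_cnr _).2] at b2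
    replace b2 := b2.trans (show _ ≤ 400 * C / d by
      have : (d : ℝ) ≤ 400 * (zd (y k) (y l) + 1) := by exact_mod_cast (by omega)
      rw [div_le_div_iff₀ (by positivity) d0]
      nlinarith)
    have q : ∀ k c, |if c = true then pi (srcs x) (y k) (j k) else 1| = 1 := by
      rintro k (_ | _)
      exacts [abs_one, abs_pm (pi_sq ..)]
    have b3 := abs_sub_abs_le_abs_sub (Wf Λ (fcs (srcs x)) [(mc (y k, j k, c)).1,
      (mc (y l, j l, c')).1]) (τ (mc (y k, j k, c)).1 (mc (y l, j l, c')).1)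
    rw [one_mul] at b1
    refine (abs_sub _ _).trans ?_
    rw [abs_mul, abs_mul, q, q, one_mul, one_mul, one_mul, mul_div_assoc]
    rw [mul_div_assoc] at b2
    linarith

/-- The representation for the free boundary condition. -/
theorem rep_free (hJ : 0 < J) : Rep J none := by
  classical
  obtain ⟨C, τ, hC, h1, h2⟩ := ker3
  obtain ⟨C', hC', h3⟩ := wf_se
  refine ⟨C, 160001, fun a b => sl a * sl b * (sg (mc a) (mc b) * τ (mc a).1 (mc b).1),
    fun a b => ?_, fun n => ?_⟩
  · simp only [abs_mul, sl_abs, sg_abs, one_mul]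
    simpa only [(mc_cnr _).2] using h1 (mc a).1 _ (mc_cnr b).1
  obtain ⟨D, hD, h4⟩ := P144Z.MD.dis_decay n
  refine ⟨D * 2 ^ n + 10 ^ 4 + 2 * C' + 2 * (801 * C), fun m Λ x y j T r hr hF => ?_⟩
  obtain ⟨d, rfl⟩ : ∃ d, r = d + 1 := ⟨r - 1, by omega⟩
  have d0 : (0 : ℝ) < d := by exact_mod_cast (by omega)
  have dv : ∀ {K : ℝ}, 0 ≤ K → K / d ≤ 2 * K / (d + 1 : ℕ) := fun h => by
    simpa only [Nat.cast_add, Nat.cast_one] using dv (e := d) (q := d) h (by omega)
  have p1 : 0 ≤ D * 2 ^ n := by positivity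
  have xi : ∀ i, x i ∈ inn Λ := fun i v hv => hF.hx i v (by
    rw [mem_bx] at hv
    unfold zd
    omega)
  have x0 : ∀ i, x i ∈ Λ := fun i => xi i _ (H170.self_mem_bx _ _)
  have nd : (fcs (srcs x)).Nodup := by
    refine Multiset.coe_nodup.2 ?_
    rw [srcs, List.map_map]
    refine (List.nodup_finRange n).map fun i i' e => by_contra fun a => ?_
    have := hF.xx i i' a
    rw [show x i = x i' from e, zd_self] at this
    omega
  have hR : ∀ f ∈ fcs (srcs x), f ∈ inn Λ ∧ f ∉ Λ \ univ.image x := fun f hf => by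
    obtain ⟨i, rfl⟩ := mem_src.1 hf
    exact ⟨xi i, by simp⟩
  have bl : ∀ k ∈ T, ∀ v, zd v (y k) ≤ d → v ∈ Λ \ univ.image x := fun k hk v hv =>
    Finset.mem_sdiff.2 ⟨hF.hy k hk v (by omega), fun c => by
      obtain ⟨i, -, rfl⟩ := mem_image.1 c
      have := hF.xy i k hk
      omega⟩
  refine ⟨{∅}, fun _ => H436.MM Λ (fcs (srcs x)) * el (srcs x), List.finRange n,
    fun _ => KF y j x Λ, List.nodup_finRange n, ?_, fun _ _ => ⟨fun i _ i' _ a => ?_,
      fun i _ k hk c => ?_, fun k hk l hl => ?_⟩, fun s h5 h6 t => ?_⟩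
  · have a := h4 d (by omega) Λ ⟨_, nd⟩ (by simp [fcs, srcs]) (fun u hu v hv e => by
      obtain ⟨i, rfl⟩ := mem_src.1 hu
      obtain ⟨i', rfl⟩ := mem_src.1 hv
      exact hF.xx i i' fun c => e (congrArg x c)) fun u hu v hv => by
        obtain ⟨i, rfl⟩ := mem_src.1 hu
        exact hF.hx i v (by omega)
    have b : ((d + 1 : ℕ) : ℝ) ^ ((n : ℝ) / 8) ≤ 2 ^ n * (d : ℝ) ^ ((n : ℝ) / 8) := by
      refine (Real.rpow_le_rpow (by positivity) (show _ ≤ 2 * (d : ℝ) by
        exact_mod_cast (by omega)) (by positivity)).trans ?_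
      rw [Real.mul_rpow zero_le_two d0.le, ← Real.rpow_natCast]
      exact mul_le_mul_of_nonneg_right (Real.rpow_le_rpow_of_exponent_le one_le_two
        (div_le_self (Nat.cast_nonneg _) (by norm_num))) (by positivity)
    rw [sum_singleton, abs_mul, abs_pm (AL.el_sq _), mul_one,
      abs_of_pos (a := H436.MM _ _) (div_pos (AL.QQ_pos _ _) (AL.QQ_pos _ _))]
    refine (mul_le_mul a b (by positivity) (by positivity)).trans ?_
    rw [mul_mul_mul_comm, ← Real.rpow_add d0, neg_add_cancel, Real.rpow_zero, mul_one]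
    linarith
  · obtain ⟨R, e⟩ := Multiset.exists_cons_of_mem (mem_src.2 ⟨i', rfl⟩ : x i' ∈ fcs (srcs x))
    rw [e, Multiset.nodup_cons] at nd
    rw [KF_abs, e]
    refine (wf_ss nd.2 (xi i') (x0 i) fun f hf => ?_).trans (by linarith)
    obtain ⟨k, rfl⟩ := mem_src.1 (e ▸ Multiset.mem_cons_of_mem hf)
    refine ⟨xi k, fun c => ?_⟩
    have := hF.xx k i' fun e => nd.1 (e ▸ hf)
    rw [mem_cnr] at c
    simp only [Prod.ext_iff] at c
    unfold zd at this
    omega
  · rw [← sq_abs, KF_abs, sq_abs]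
    exact ((h3 Λ _ _ sdiff_subset hR _ (x i) d (mc_cnr (y k, j k, c)).1 (mem_src.2 ⟨i, rfl⟩)
      (by omega) (by rw [(mc_cnr _).2]; exact bl k hk)).trans (dv hC')).trans
      (div_le_div_of_nonneg_right (by linarith) (by positivity))
  · obtain ⟨η, a1, a2, a3⟩ := ee_free (Λ := Λ) (j := j) hC (by omega) h1
      (fun a => hF.xy a k hk) (fun a => hF.xy a l hl) fun c c' => h2 _ _ _ (ks_dis sdiff_subset hR)
        _ _ (y l) (y k) d (mc_cnr (y k, j k, c)).1 (mc_cnr (y l, j l, c')).1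
        (by rw [(mc_cnr _).2, zd_self]; omega) (by rw [(mc_cnr _).2, zd_self]; omega) (by omega)
        (bl l hl) (bl k hk)
    exact ⟨η, a1, a2, fun c c' => ((a3 c c').trans (dv (by positivity))).trans
      (div_le_div_of_nonneg_right (by linarith) (by positivity))⟩
  · rw [sum_singleton]
    exact mix hJ x0 h5 (fun k hk => ⟨hF.hy k (h6 k hk) _ (by rw [zd_self]; omega),
      hF.hy k (h6 k hk) _ (by rw [zd_dir]; omega)⟩) t

end Vale.Agent.P144DQ
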